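import Vale.Agent.P243.Kinks

/-!
# Chord lengths in one direction

A chord almost as long as the Rogers–Shephard bound allows has a kinked endpoint; hence, after
discounting the neighbourhood of the kinked points, every line gains a fixed amount.
-/

namespace Vale.Agent.P243

open MeasureTheory Set Metric
open scoped RealInnerProductSpace ENNReal

/-- The plane. -/
abbrev E2 := EuclideanSpace ℝ (Fin 2)

/-- Coordinates adapted to a direction: `A (0, 1)` is the direction. -/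
structure Frame where
  /-- The linear part. -/
  lin : (E2 × ℝ) ≃L[ℝ] E3
  /-- The translation part. -/
  shift : E3
  unit : ‖lin (0, 1)‖ = 1

namespace Frame

variable (Φ : Frame)

/-- The direction of the frame. -/
noncomputable def dir : E3 := Φ.lin (0, 1)

/-- The point with coordinates `(y, s)`. -/
def pt (q : E2 × ℝ) : E3 := Φ.shift + Φ.lin q

lemma pt_diff (y : E2) (s s' : ℝ) : Φ.pt (y, s) - Φ.pt (y, s') = (s - s') • Φ.dir := by
  simp only [pt, dir, add_sub_add_left_eq_sub, ← map_sub, ← map_smul]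
  congr 1
  ext <;> simp

lemma norm_dir : ‖Φ.dir‖ = 1 := Φ.unit

/-- The homeomorphism underlying a frame. -/
noncomputable def homeo : (E2 × ℝ) ≃ₜ E3 := Φ.lin.toHomeomorph.trans (Homeomorph.addLeft Φ.shift)

lemma homeo_apply (q : E2 × ℝ) : Φ.homeo q = Φ.pt q := rfl

lemma continuous_pt : Continuous Φ.pt := continuous_const.add Φ.lin.continuous

/-- A measure on `E2 × ℝ` pulled back from `E3` is a multiple of the product measure. -/
lemma exists_jacobian : ∃ c : ℝ≥0∞, c ≠ 0 ∧ c ≠ ⊤ ∧ ∀ S : Set E3, MeasurableSet S →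
    (volume : Measure E2).prod (volume : Measure ℝ) (Φ.pt ⁻¹' S) = c * volume S := by
  set ν := ((volume : Measure E2).prod (volume : Measure ℝ)).map Φ.lin with hν
  have : ν.IsAddHaarMeasure := Φ.lin.isAddHaarMeasure_map _
  have h := Measure.isAddLeftInvariant_eq_smul ν (volume : Measure E3)
  refine ⟨(ν.addHaarScalarFactor volume : ℝ≥0∞), ?_, ENNReal.coe_ne_top, fun S hS => ?_⟩
  · simpa using (Measure.addHaarScalarFactor_pos_of_isAddHaarMeasure ν volume).ne'
  · have e : Φ.pt ⁻¹' S = Φ.lin ⁻¹' ((fun x => Φ.shift + x) ⁻¹' S) := rfl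
    rw [e, ← Measure.map_apply Φ.lin.continuous.measurable (hS.preimage (measurable_const_add _)),
      ← hν]
    conv_lhs => rw [h]
    rw [Measure.smul_apply, measure_preimage_add]
    rfl

/-- The parameters of the line over `y` that lie in `K`. -/
def fib (K : Set E3) (y : E2) : Set ℝ := {s | Φ.pt (y, s) ∈ K}

/-- The shadow of `K`. -/
def shadow (K : Set E3) : Set E2 := {y | (Φ.fib K y).Nonempty}

variable {K : Set E3}

lemma isCompact_pre (hK : IsCompact K) : IsCompact (Φ.pt ⁻¹' K) :=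
  Φ.homeo.isCompact_preimage.mpr hK

lemma isCompact_shadow (hK : IsCompact K) : IsCompact (Φ.shadow K) := by
  have : Φ.shadow K = Prod.fst '' (Φ.pt ⁻¹' K) := by
    ext y
    constructor
    · rintro ⟨s, hs⟩; exact ⟨(y, s), hs, rfl⟩
    · rintro ⟨⟨y', s⟩, hs, rfl⟩; exact ⟨s, hs⟩
  rw [this]
  exact (Φ.isCompact_pre hK).image continuous_fst

lemma isCompact_fib (hK : IsCompact K) (y : E2) : IsCompact (Φ.fib K y) :=
  ((Φ.isCompact_pre hK).image continuous_snd).of_isClosed_subset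
    (hK.isClosed.preimage (Φ.continuous_pt.comp (by fun_prop : Continuous fun s : ℝ => (y, s))))
    fun s hs => ⟨(y, s), hs, rfl⟩

lemma convex_comb (hKc : Convex ℝ K) {y y' : E2} {s s' lam : ℝ} (hs : s ∈ Φ.fib K y)
    (hs' : s' ∈ Φ.fib K y') (h0 : 0 ≤ lam) (h1 : lam ≤ 1) :
    (1 - lam) * s + lam * s' ∈ Φ.fib K ((1 - lam) • y + lam • y') := by
  have h := hKc hs hs' (by linarith : 0 ≤ 1 - lam) h0 (by ring)
  show Φ.pt _ ∈ K
  convert h using 1
  simp only [pt]
  rw [show (((1 - lam) • y + lam • y', (1 - lam) * s + lam * s') : E2 × ℝ) =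
    (1 - lam) • (y, s) + lam • (y', s') by simp [Prod.smul_mk], map_add, map_smul, map_smul]
  module

lemma convex_fib (hKc : Convex ℝ K) (y : E2) : Convex ℝ (Φ.fib K y) := by
  intro s hs s' hs' a b ha hb hab
  have h := Φ.convex_comb hKc hs hs' hb (by linarith : b ≤ 1)
  rw [← add_smul, sub_add_cancel, one_smul, show 1 - b = a by linarith] at h
  simpa using h

/-- The chord length over `y`. -/
noncomputable def len (K : Set E3) (y : E2) : ℝ := (volume (Φ.fib K y)).toReal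

lemma len_nonneg (y : E2) : 0 ≤ Φ.len K y := ENNReal.toReal_nonneg

lemma ofReal_len (hK : IsCompact K) (y : E2) :
    ENNReal.ofReal (Φ.len K y) = volume (Φ.fib K y) :=
  ENNReal.ofReal_toReal (Φ.isCompact_fib hK y).measure_lt_top.ne

lemma fib_eq_Icc (hK : IsCompact K) (hKc : Convex ℝ K) {y : E2} (hy : y ∈ Φ.shadow K) :
    ∃ s₁ s₂, s₁ ≤ s₂ ∧ Φ.fib K y = Icc s₁ s₂ ∧ Φ.len K y = s₂ - s₁ := by
  have h := eq_Icc_of_connected_compact ((Φ.convex_fib hKc y).isConnected hy)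
    (Φ.isCompact_fib hK y)
  obtain ⟨s, hs⟩ := hy
  have hle : sInf (Φ.fib K y) ≤ sSup (Φ.fib K y) := by
    rw [h] at hs
    exact hs.1.trans hs.2
  refine ⟨_, _, hle, h, ?_⟩
  rw [len]
  conv_lhs => rw [h]
  rw [Real.volume_Icc, ENNReal.toReal_ofReal (by linarith)]

lemma len_le {R : ℝ} (hK : IsCompact K) (hKc : Convex ℝ K) (hKR : K ⊆ closedBall 0 R) (y : E2)
    (hR : 0 ≤ R) : Φ.len K y ≤ 2 * R := by
  by_cases hy : y ∈ Φ.shadow K
  · obtain ⟨s₁, s₂, hle, he, hl⟩ := Φ.fib_eq_Icc hK hKc hy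
    have h1 : Φ.pt (y, s₁) ∈ K := by
      have : s₁ ∈ Φ.fib K y := by rw [he]; exact left_mem_Icc.mpr hle
      exact this
    have h2 : Φ.pt (y, s₂) ∈ K := by
      have : s₂ ∈ Φ.fib K y := by rw [he]; exact right_mem_Icc.mpr hle
      exact this
    have h3 := norm_sub_le (Φ.pt (y, s₂)) (Φ.pt (y, s₁))
    rw [Φ.pt_diff, norm_smul, Φ.norm_dir, Real.norm_of_nonneg (by linarith), mul_one] at h3
    have := mem_closedBall_zero_iff.mp (hKR h1)
    have := mem_closedBall_zero_iff.mp (hKR h2)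
    linarith
  · have : Φ.fib K y = ∅ := Set.not_nonempty_iff_eq_empty.mp hy
    simp [len, this, hR]

lemma le_len (hK : IsCompact K) (hKc : Convex ℝ K) {y : E2} {s₁ s₂ : ℝ} (h1 : s₁ ∈ Φ.fib K y)
    (h2 : s₂ ∈ Φ.fib K y) : s₂ - s₁ ≤ Φ.len K y := by
  obtain ⟨a, b, -, he, hl⟩ := Φ.fib_eq_Icc hK hKc ⟨s₁, h1⟩
  rw [he] at h1 h2
  rw [hl]
  linarith [h1.1, h2.2]

lemma measurable_len (hK : IsCompact K) : Measurable (Φ.len K) :=
  (measurable_measure_prodMk_left (Φ.isCompact_pre hK).measurableSet).ennreal_toReal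

/-- Fubini: the integral of the chord lengths. -/
lemma lintegral_len {c : ℝ≥0∞} (hK : IsCompact K)
    (hc : ∀ S : Set E3, MeasurableSet S →
      (volume : Measure E2).prod (volume : Measure ℝ) (Φ.pt ⁻¹' S) = c * volume S) :
    ∫⁻ y, ENNReal.ofReal (Φ.len K y) = c * volume K := by
  rw [← hc K hK.measurableSet, Measure.prod_apply (Φ.isCompact_pre hK).measurableSet]
  exact lintegral_congr fun y => Φ.ofReal_len hK y

lemma integral_sq_profile (l : ℝ) (hl : 0 < l) :
    ∫⁻ τ in Ioc 0 l, ENNReal.ofReal ((1 - τ / l) ^ 2) = ENNReal.ofReal (l / 3) := by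
  rw [← ofReal_integral_eq_lintegral_ofReal
    ((by fun_prop : Continuous fun τ : ℝ => (1 - τ / l) ^ 2).integrableOn_Ioc)
    (ae_of_all _ fun τ => sq_nonneg _), ← intervalIntegral.integral_of_le hl.le]
  congr 1
  have hd : ∀ τ ∈ Set.uIcc 0 l,
      HasDerivAt (fun τ => -(l / 3) * (1 - τ / l) ^ 3) ((1 - τ / l) ^ 2) τ := by
    intro τ _
    have h0 : HasDerivAt (fun x : ℝ => 1 - x / l) (-(1 / l)) τ :=
      ((hasDerivAt_id τ).div_const l).const_sub 1
    refine ((h0.fun_pow 3).const_mul (-(l / 3))).congr_deriv ?_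
    push_cast
    field_simp
  rw [intervalIntegral.integral_eq_sub_of_hasDerivAt hd
    ((by fun_prop : Continuous fun τ : ℝ => (1 - τ / l) ^ 2).intervalIntegrable 0 l)]
  rw [div_self hl.ne']
  norm_num

/-- A contracted shadow lies over long chords. -/
lemma image_subset_super (hK : IsCompact K) (hKc : Convex ℝ K) {y₀ : E2} {a b lam τ : ℝ}
    (ha : a ∈ Φ.fib K y₀) (hb : b ∈ Φ.fib K y₀) (h0 : 0 ≤ lam) (h1 : lam ≤ 1)
    (hτ : τ ≤ (1 - lam) * (b - a)) :
    AffineMap.homothety y₀ lam '' Φ.shadow K ⊆ {y | τ ≤ Φ.len K y} := by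
  rintro _ ⟨p, ⟨s, hs⟩, rfl⟩
  have e : AffineMap.homothety y₀ lam p = (1 - lam) • y₀ + lam • p := by
    simp [AffineMap.homothety_apply]; module
  rw [e]
  show τ ≤ Φ.len K _
  have := Φ.le_len hK hKc (Φ.convex_comb hKc ha hs h0 h1) (Φ.convex_comb hKc hb hs h0 h1)
  linarith

lemma volume_homothety (S : Set E2) (y : E2) (lam : ℝ) :
    volume (AffineMap.homothety y lam '' S) = ENNReal.ofReal (lam ^ 2) * volume S := by
  rw [Measure.addHaar_image_homothety, finrank_euclideanSpace_fin, abs_of_nonneg (sq_nonneg lam)]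

/-- The Rogers–Shephard inequality in one direction. -/
lemma chord_le {c : ℝ≥0∞} (hK : IsCompact K) (hKc : Convex ℝ K)
    (hc : ∀ S : Set E3, MeasurableSet S →
      (volume : Measure E2).prod (volume : Measure ℝ) (Φ.pt ⁻¹' S) = c * volume S)
    {y₀ : E2} (hy₀ : y₀ ∈ Φ.shadow K) :
    ENNReal.ofReal (Φ.len K y₀ / 3) * volume (Φ.shadow K) ≤ c * volume K := by
  obtain ⟨a, b, hle, he, hl⟩ := Φ.fib_eq_Icc hK hKc hy₀
  rcases hle.eq_or_lt with hab | hab
  · simp [hl, hab]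
  have hl0 : 0 < Φ.len K y₀ := by linarith
  rw [← Φ.lintegral_len hK hc, lintegral_eq_lintegral_meas_le volume
    (ae_of_all _ fun y => Φ.len_nonneg y) (Φ.measurable_len hK).aemeasurable,
    ← integral_sq_profile _ hl0, ← lintegral_mul_const _ (by fun_prop)]
  refine le_trans (setLIntegral_mono' measurableSet_Ioc fun τ hτ => ?_)
    (lintegral_mono_set Ioc_subset_Ioi_self)
  have hlam : 0 ≤ 1 - τ / Φ.len K y₀ := by
    rw [sub_nonneg, div_le_one hl0]; exact hτ.2
  have hlam1 : 1 - τ / Φ.len K y₀ ≤ 1 := by linarith [div_nonneg hτ.1.le hl0.le]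
  rw [← volume_homothety _ y₀]
  refine measure_mono (Φ.image_subset_super hK hKc (a := a) (b := b) ?_ ?_ hlam hlam1 ?_)
  · rw [he]; exact left_mem_Icc.mpr hle
  · rw [he]; exact right_mem_Icc.mpr hle
  · rw [← hl, sub_sub_cancel, div_mul_cancel₀ _ hl0.ne']

/-- If some chord beats the cone over `a b` by `η`, the volume exceeds the cone volume. -/
lemma chord_le_excess {c : ℝ≥0∞} (hK : IsCompact K) (hKc : Convex ℝ K)
    (hKR : K ⊆ closedBall 0 3)
    (hc : ∀ S : Set E3, MeasurableSet S →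
      (volume : Measure E2).prod (volume : Measure ℝ) (Φ.pt ⁻¹' S) = c * volume S)
    {y₀ : E2} (hy₀ : y₀ ∈ Φ.shadow K) (hl0 : 0 < Φ.len K y₀) (v : E2 →ₗ[ℝ] ℝ)
    (hv : ∀ p ∈ Φ.shadow K, ∀ q ∈ Φ.shadow K, v (p - q) ≤ 1) {η : ℝ} (hη : 0 < η) (hη1 : η ≤ 1)
    {y₁ : E2} {s s' : ℝ} (hs : s ∈ Φ.fib K y₁) (hs' : s' ∈ Φ.fib K y₁)
    (hbad : Φ.len K y₀ * (1 - v (y₁ - y₀)) + η < s' - s) :
    ENNReal.ofReal (Φ.len K y₀ / 3 + η ^ 3 / 2304) * volume (Φ.shadow K) ≤ c * volume K := by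
  obtain ⟨a, b, hle, he, hl⟩ := Φ.fib_eq_Icc hK hKc hy₀
  have haf : a ∈ Φ.fib K y₀ := by rw [he]; exact left_mem_Icc.mpr hle
  have hbf : b ∈ Φ.fib K y₀ := by rw [he]; exact right_mem_Icc.mpr hle
  have hy₁ : y₁ ∈ Φ.shadow K := ⟨s, hs⟩
  set l := Φ.len K y₀ with hldef
  have hl6 : l ≤ 6 := by
    have := Φ.len_le hK hKc hKR y₀ (by norm_num); linarith
  have ht6 : s' - s ≤ 6 := by
    have := Φ.le_len hK hKc hs hs'
    have := Φ.len_le hK hKc hKR y₁ (by norm_num)
    linarith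
  set g := l * (1 - v (y₁ - y₀)) with hg
  have hv1 : v (y₁ - y₀) ≤ 1 := hv y₁ hy₁ y₀ hy₀
  have hg0 : 0 ≤ g := mul_nonneg hl0.le (by linarith)
  set θ := η / 24 with hθ
  rw [← Φ.lintegral_len hK hc, lintegral_eq_lintegral_meas_le volume
    (ae_of_all _ fun y => Φ.len_nonneg y) (Φ.measurable_len hK).aemeasurable]
  set I := Ioc (g + η / 4) (g + η / 2)
  set G : ℝ → ℝ≥0∞ := fun τ =>
    (Ioc 0 l).indicator (fun τ => ENNReal.ofReal ((1 - τ / l) ^ 2) * volume (Φ.shadow K)) τ +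
      I.indicator (fun _ => ENNReal.ofReal (θ ^ 2) * volume (Φ.shadow K)) τ with hG
  have hGle : ∀ τ ∈ Ioi (0 : ℝ), G τ ≤ volume {y | τ ≤ Φ.len K y} := by
    intro τ hτ
    simp only [mem_Ioi] at hτ
    set S₁ : Set E2 := if τ ≤ l then AffineMap.homothety y₀ (1 - τ / l) '' Φ.shadow K else ∅
      with hS₁
    set S₂ : Set E2 := if τ ∈ I then AffineMap.homothety y₁ θ '' Φ.shadow K else ∅ with hS₂
    have hS₁s : S₁ ⊆ {y | τ ≤ Φ.len K y} := by
      rw [hS₁]
      split_ifs with h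
      · refine Φ.image_subset_super hK hKc haf hbf ?_ ?_ ?_
        · rw [sub_nonneg, div_le_one hl0]; exact h
        · linarith [div_nonneg hτ.le hl0.le]
        · rw [← hl, sub_sub_cancel, div_mul_cancel₀ _ hl0.ne']
      · exact Set.empty_subset _
    have hS₂s : S₂ ⊆ {y | τ ≤ Φ.len K y} := by
      rw [hS₂]
      split_ifs with h
      · refine Φ.image_subset_super hK hKc hs hs' (by positivity) (by rw [hθ]; linarith) ?_
        have h1 : θ * (s' - s) ≤ θ * 6 := mul_le_mul_of_nonneg_left ht6 (by positivity)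
        have h2 := h.2
        rw [hθ] at h1 ⊢
        linarith
      · exact Set.empty_subset _
    have hm₂ : MeasurableSet S₂ := by
      rw [hS₂]
      split_ifs
      · exact ((Φ.isCompact_shadow hK).image (AffineMap.homothety_continuous _ _)).measurableSet
      · exact MeasurableSet.empty
    have hd : Disjoint S₁ S₂ := by
      rw [hS₁, hS₂]
      split_ifs with h1 h2
      · rw [Set.disjoint_left]
        rintro _ ⟨p, hp, rfl⟩ ⟨p', hp', heq⟩
        have e1 := congrArg (fun y => v (y - y₀)) heq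
        simp only [AffineMap.homothety_apply, vsub_eq_sub, vadd_eq_add, map_sub, map_add,
          map_smul, smul_eq_mul] at e1
        have hlam : 0 ≤ 1 - τ / l := by rw [sub_nonneg, div_le_one hl0]; exact h1
        have b1 : (1 - τ / l) * (v p - v y₀) ≤ (1 - τ / l) * 1 :=
          mul_le_mul_of_nonneg_left (by rw [← map_sub]; exact hv p hp y₀ hy₀) hlam
        have b2 : θ * (v y₁ - v p') ≤ θ * 1 :=
          mul_le_mul_of_nonneg_left (by rw [← map_sub]; exact hv y₁ hy₁ p' hp') (by positivity)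
        have b3 : τ / l ≤ 1 - (v y₁ - v y₀) + θ := by linarith
        rw [div_le_iff₀ hl0] at b3
        have b4 : g = l * (1 - (v y₁ - v y₀)) := by rw [hg, map_sub]
        have b5 : θ * l ≤ η / 4 := by rw [hθ]; nlinarith
        linarith [h2.1]
      all_goals simp
    calc G τ ≤ volume S₁ + volume S₂ := by
          rw [hG, hS₁, hS₂]
          refine add_le_add ?_ ?_
          · by_cases h : τ ≤ l
            · rw [if_pos h, Set.indicator_of_mem (show τ ∈ Ioc 0 l from ⟨hτ, h⟩), volume_homothety]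
            · rw [if_neg h, Set.indicator_of_notMem (fun h' => h h'.2)]
              simp
          · by_cases h : τ ∈ I
            · rw [if_pos h, Set.indicator_of_mem h, volume_homothety]
            · rw [if_neg h, Set.indicator_of_notMem h]
              simp
      _ = volume (S₁ ∪ S₂) := (measure_union hd hm₂).symm
      _ ≤ _ := measure_mono (Set.union_subset hS₁s hS₂s)
  refine le_trans ?_ (setLIntegral_mono' measurableSet_Ioi hGle)
  rw [hG, lintegral_add_right _ ((measurable_const).indicator measurableSet_Ioc),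
    setLIntegral_indicator measurableSet_Ioc, setLIntegral_indicator measurableSet_Ioc,
    Set.inter_eq_left.mpr Ioc_subset_Ioi_self,
    Set.inter_eq_left.mpr (show I ⊆ Ioi (0 : ℝ) from fun x hx => by
      have := hx.1
      show (0 : ℝ) < x
      linarith),
    lintegral_mul_const _ (by fun_prop), integral_sq_profile l hl0, setLIntegral_const,
    Real.volume_Ioc, ENNReal.ofReal_add (by positivity) (by positivity), add_mul]
  refine add_le_add le_rfl (le_of_eq ?_)
  rw [mul_right_comm, ← ENNReal.ofReal_mul (by positivity)]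
  congr 2
  rw [hθ]
  ring

/-- The separation step. -/
lemma exists_separating (hK : IsCompact K) (hKc : Convex ℝ K) {a b : E3} {l η : ℝ}
    (ha : a ∈ K) (hb : b ∈ K) (hab : a - b = l • Φ.dir) (hη : 0 < η) (ψ : E3)
    (h : ∀ z ∈ K, ∀ w ∈ K, ∀ t : ℝ, z - w = t • Φ.dir → t - l + l * ⟪ψ, w - b⟫ ≤ η) :
    ∃ f : E3, ⟪f, Φ.dir⟫ = 1 ∧
      ∀ z ∈ K, ∀ w ∈ K, ⟪f, z - a⟫ - ⟪f, w - b⟫ + l * ⟪ψ, w - b⟫ ≤ 2 * η := by
  set u := Φ.dir
  set H : Set (E3 × ℝ) := (fun zw : E3 × E3 => ((zw.1 - a) - (zw.2 - b), l * ⟪ψ, zw.2 - b⟫)) ''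
    (K ×ˢ K) with hH
  set Lset : Set (E3 × ℝ) := {q | ∃ σ : ℝ, q.1 = σ • u ∧ 2 * η ≤ σ + q.2} with hL
  have hHc : IsCompact H := (hK.prod hK).image (by fun_prop)
  have hHv : Convex ℝ H := by
    rintro _ ⟨⟨z, w⟩, ⟨hz, hw⟩, rfl⟩ _ ⟨⟨z', w'⟩, ⟨hz', hw'⟩, rfl⟩ α β hα hβ hαβ
    refine ⟨(α • z + β • z', α • w + β • w'), ⟨hKc hz hz' hα hβ hαβ, hKc hw hw' hα hβ hαβ⟩, ?_⟩
    obtain rfl : β = 1 - α := by linarith
    ext1
    · simp; module
    · simp only [Prod.snd_add, Prod.smul_snd, smul_eq_mul, inner_sub_right, inner_add_right,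
        real_inner_smul_right]
      ring
  have hLv : Convex ℝ Lset := by
    rintro q ⟨σ, h1, h2⟩ q' ⟨σ', h1', h2'⟩ α β hα hβ hαβ
    refine ⟨α * σ + β * σ', by simp [h1, h1', add_smul, smul_smul], ?_⟩
    simp only [Prod.snd_add, Prod.smul_snd, smul_eq_mul]
    have := mul_le_mul_of_nonneg_left h2 hα
    have := mul_le_mul_of_nonneg_left h2' hβ
    have h3 : 2 * η = α * (2 * η) + β * (2 * η) := by rw [← add_mul, hαβ, one_mul]
    linarith
  have hu1 : ⟪u, u⟫ = 1 := by rw [real_inner_self_eq_norm_sq, Φ.norm_dir, one_pow]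
  have hLc : IsClosed Lset := by
    have : Lset = {q : E3 × ℝ | q.1 = ⟪u, q.1⟫ • u ∧ 2 * η ≤ ⟪u, q.1⟫ + q.2} := by
      ext q
      constructor
      · rintro ⟨σ, h1, h2⟩
        have : ⟪u, q.1⟫ = σ := by rw [h1, real_inner_smul_right, hu1, mul_one]
        exact ⟨by rw [this]; exact h1, by rw [this]; exact h2⟩
      · rintro ⟨h1, h2⟩; exact ⟨_, h1, h2⟩
    rw [this]
    exact (isClosed_eq (f := fun q : E3 × ℝ => q.1) (g := fun q : E3 × ℝ => ⟪u, q.1⟫ • u)
        (by fun_prop) (by fun_prop)).inter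
      (isClosed_le (f := fun _ : E3 × ℝ => 2 * η) (g := fun q : E3 × ℝ => ⟪u, q.1⟫ + q.2)
        (by fun_prop) (by fun_prop))
  have hd : Disjoint H Lset := by
    rw [Set.disjoint_left]
    rintro _ ⟨⟨z, w⟩, ⟨hz, hw⟩, rfl⟩ ⟨σ, h1, h2⟩
    simp only at h1 h2
    have hzw : z - w = (σ + l) • u := by rw [add_smul, ← h1, ← hab]; abel
    have := h z hz w hw _ hzw
    linarith
  obtain ⟨F, α, β, hFH, hαβ, hFL⟩ := geometric_hahn_banach_compact_closed hHv hHc hLv hLc hd
  set κ := F (0, 1) with hκ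
  have hF : ∀ q : E3 × ℝ, F q = F (q.1, 0) + q.2 * κ := by
    intro q
    rw [hκ, ← smul_eq_mul, ← map_smul, ← map_add]
    congr 1
    ext <;> simp
  have hFu : ∀ σ : ℝ, F (σ • u, 0) = σ * F (u, 0) := by
    intro σ
    rw [← smul_eq_mul, ← map_smul]
    simp
  have hline : ∀ σ x : ℝ, 2 * η ≤ σ + x → β < σ * F (u, 0) + x * κ := by
    intro σ x hx
    have := hFL (σ • u, x) ⟨σ, rfl, hx⟩
    rw [hF] at this
    simpa [hFu] using this
  have hκu : F (u, 0) = κ := by
    by_contra hne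
    set σ := (β - 2 * η * κ) / (F (u, 0) - κ) with hσ
    have h1 := hline σ (2 * η - σ) (by linarith)
    have h2 : σ * (F (u, 0) - κ) = β - 2 * η * κ := div_mul_cancel₀ _ (sub_ne_zero.mpr hne)
    linarith
  have hzero : ((0 : E3), (0 : ℝ)) ∈ H := ⟨(a, b), ⟨ha, hb⟩, by simp⟩
  have hκ0 : 0 < κ := by
    have h1 := hline 0 (2 * η) (by simp)
    have h2 := hFH _ hzero
    rw [show F ((0 : E3), (0 : ℝ)) = 0 from map_zero F] at h2
    nlinarith
  set g : E3 →L[ℝ] ℝ := κ⁻¹ • F.comp (ContinuousLinearMap.inl ℝ E3 ℝ) with hg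
  obtain ⟨f, hf⟩ : ∃ f : E3, ∀ x, ⟪f, x⟫ = g x :=
    ⟨(InnerProductSpace.toDual ℝ E3).symm g, fun x => InnerProductSpace.toDual_symm_apply⟩
  refine ⟨f, ?_, fun z hz w hw => ?_⟩
  · rw [hf, hg]
    simp [hκu, hκ0.ne']
  · have h1 := hFH _ ⟨(z, w), ⟨hz, hw⟩, rfl⟩
    have h2 := hline 0 (2 * η) (by simp)
    rw [hF] at h1
    simp only at h1
    rw [← inner_sub_right, hf, hg]
    simp only [smul_apply, ContinuousLinearMap.coe_comp, Function.comp_apply,
      ContinuousLinearMap.inl_apply, smul_eq_mul]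
    have h3 : κ⁻¹ * F (z - a - (w - b), 0) + l * ⟪ψ, w - b⟫ =
        (F (z - a - (w - b), 0) + l * ⟪ψ, w - b⟫ * κ) / κ := by field_simp
    rw [h3, div_le_iff₀ hκ0]
    linarith

end Frame

end Vale.Agent.P243
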