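import Vale.Agent.P243.Normalise

/-!
# The improved covering bound
-/

namespace Vale.Agent.P243

open MeasureTheory Set Metric
open scoped RealInnerProductSpace ENNReal

namespace Frame

variable (Φ : Frame) {K : Set E3}

/-- The cylinder over a base. -/
def cyl (B : Set E2) : Set E3 := Φ.pt '' (B ×ˢ Set.univ)

lemma measurableSet_cyl {B : Set E2} (hB : MeasurableSet B) : MeasurableSet (Φ.cyl B) :=
  (Φ.homeo.toMeasurableEquiv.measurableEmbedding.measurableSet_image).mpr
    (hB.prod MeasurableSet.univ)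

/-- A cylinder carries at most `3 (1 - δ) V |B| / |shadow|` of the discounted volume. -/
lemma cyl_gain (π : Params) (hK : IsCompact K) (hKc : Convex ℝ K)
    (hK1 : closedBall (0 : E3) (1 / 10) ⊆ K) (hKR : K ⊆ closedBall 0 3) {B : Set E2}
    (hB : MeasurableSet B) :
    ENNReal.ofReal (1 - π.theta) * volume (K ∩ Φ.cyl B) +
        ENNReal.ofReal π.theta * volume ((K \ π.region K) ∩ Φ.cyl B) ≤
      ENNReal.ofReal (3 * (1 - π.delta) * (volume K).toReal) *
        (volume B / volume (Φ.shadow K)) := by
  obtain ⟨c, hc0, hct, hc⟩ := Φ.exists_jacobian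
  have hKN : MeasurableSet (K \ π.region K) :=
    hK.measurableSet.diff (isOpen_kinkNbhd _ _ _ _).measurableSet
  have hint : ∀ S : Set E3, MeasurableSet S →
      c * volume (S ∩ Φ.cyl B) = ∫⁻ y in B, volume (Φ.fib S y) := by
    intro S hS
    have hm := (hS.inter (Φ.measurableSet_cyl hB))
    rw [← hc _ hm, Measure.prod_apply (hm.preimage Φ.continuous_pt.measurable),
      ← lintegral_indicator hB]
    refine lintegral_congr fun y => ?_
    have hiff : ∀ s, Φ.pt (y, s) ∈ Φ.cyl B ↔ y ∈ B := by
      intro s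
      constructor
      · rintro ⟨q, hq, he⟩
        rw [← Φ.homeo_apply, ← Φ.homeo_apply] at he
        have := Φ.homeo.injective he
        subst this
        exact hq.1
      · exact fun hy => ⟨(y, s), ⟨hy, Set.mem_univ _⟩, rfl⟩
    by_cases hy : y ∈ B
    · rw [Set.indicator_of_mem hy]
      congr 1
      ext s
      simp [fib, hiff, hy]
    · rw [Set.indicator_of_notMem hy]
      convert measure_empty (μ := (volume : Measure ℝ))
      ext s
      simp [hiff, hy]
  have hPt : volume (Φ.shadow K) ≠ ⊤ := (Φ.isCompact_shadow hK).measure_lt_top.ne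
  have hP0 : volume (Φ.shadow K) ≠ 0 := (Φ.shadow_pos hK1).ne'
  have hfibm : ∀ S : Set E3, MeasurableSet S →
      Measurable fun y => ENNReal.ofReal (1 - π.theta) * volume (Φ.fib S y) := fun S hS =>
    (measurable_measure_prodMk_left (ν := (volume : Measure ℝ))
      (hS.preimage Φ.continuous_pt.measurable)).const_mul _
  have hmain : c * (ENNReal.ofReal (1 - π.theta) * volume (K ∩ Φ.cyl B) +
      ENNReal.ofReal π.theta * volume ((K \ π.region K) ∩ Φ.cyl B)) ≤
      ENNReal.ofReal ((1 - π.delta) * Φ.bound K c) * volume B := by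
    rw [mul_add, mul_left_comm, hint K hK.measurableSet, mul_left_comm c, hint _ hKN,
      ← lintegral_const_mul' _ _ ENNReal.ofReal_ne_top,
      ← lintegral_const_mul' _ _ ENNReal.ofReal_ne_top,
      ← lintegral_add_left (hfibm K hK.measurableSet), ← setLIntegral_const]
    exact lintegral_mono fun y => Φ.line_gain π hK hKc hK1 hKR hc y
  have hd : 0 ≤ 1 - π.delta := by linarith [π.delta_le, π.r_le, π.delta_pos]
  have e : ENNReal.ofReal ((1 - π.delta) * Φ.bound K c) * volume B =
      c * (ENNReal.ofReal (3 * (1 - π.delta) * (volume K).toReal) *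
        (volume B / volume (Φ.shadow K))) := by
    rw [bound, ENNReal.toReal_mul, show (1 - π.delta) *
      (3 * (c.toReal * (volume K).toReal) / (volume (Φ.shadow K)).toReal) =
      c.toReal * (3 * (1 - π.delta) * (volume K).toReal) / (volume (Φ.shadow K)).toReal by ring,
      ENNReal.ofReal_div_of_pos (ENNReal.toReal_pos hP0 hPt),
      ENNReal.ofReal_mul ENNReal.toReal_nonneg, ENNReal.ofReal_toReal hct,
      ENNReal.ofReal_toReal hPt, div_eq_mul_inv, div_eq_mul_inv]
    ring
  rw [e] at hmain
  exact (ENNReal.mul_le_mul_iff_right hc0 hct).mp hmain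

end Frame

/-- The volume bound for the discounted region, up to the factor `r ^ 2`. -/
noncomputable def regionC : ℝ :=
  5 ^ 3 * 64 / spread * (volume (closedBall (0 : E3) (3 + 3))).toReal *
    (volume (ball (0 : E3) 1)).toReal

/-- The covering bound for normalised bodies. -/
lemma normalised_bound : ∃ δ : ℝ, 0 < δ ∧ ∀ (K : Set E3), IsCompact K → Convex ℝ K →
    closedBall (0 : E3) (1 / 10) ⊆ K → K ⊆ closedBall 0 3 →
    ∀ (m : ℕ) (Φ : Fin m → Frame) (B : Fin m → Set E2),
      (∀ i, MeasurableSet (B i)) → K ⊆ ⋃ i, (Φ i).cyl (B i) →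
      ENNReal.ofReal (1 / 3 + δ) ≤ ∑ i, volume (B i) / volume ((Φ i).shadow K) := by
  set V₀ := (volume (closedBall (0 : E3) (1 / 10))).toReal with hV₀
  have hV₀p : 0 < V₀ :=
    ENNReal.toReal_pos (Metric.measure_closedBall_pos volume _ (by norm_num)).ne'
      measure_closedBall_lt_top.ne
  have hsp : 0 < spread := by unfold spread; norm_num
  have hA : 0 ≤ regionC := by unfold regionC; positivity
  set r := min (1 / 20) (V₀ / (36 * (regionC + 1))) with hr
  have hr0 : 0 < r := lt_min (by norm_num) (by positivity)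
  let π : Params := ⟨r, hr0, min_le_left _ _⟩
  have hd0 := π.delta_pos
  refine ⟨π.delta / 6, by linarith, fun K hK hKc hK1 hKR m Φ B hB hcov => ?_⟩
  set V := (volume K).toReal with hV
  have hKt : volume K ≠ ⊤ := hK.measure_lt_top.ne
  have hVp : V₀ ≤ V := ENNReal.toReal_mono hKt (measure_mono hK1)
  have hθ0 := π.theta_pos
  have hθ1 := π.theta_le
  have hd1 : π.delta ≤ 1 / 2 := by linarith [π.delta_le, π.r_le]
  set N := π.region K with hN
  have hNle : volume N ≤ ENNReal.ofReal (regionC * r ^ 2) := by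
    refine (volume_kinkNbhd_le K hK 3 spread (2 * π.eta) π.r hKR hsp
      (by unfold spread; norm_num) π.r_pos (by linarith [π.r_le]) ?_).trans
      (ENNReal.ofReal_le_ofReal (le_of_eq ?_))
    · unfold Params.eta; linarith
    · show (5 * r) ^ 3 * (64 / (spread * r)) * _ * _ = _
      unfold regionC
      field_simp
  have hlow : ENNReal.ofReal (V * (1 - π.delta / 2)) ≤
      ENNReal.ofReal (1 - π.theta) * volume K + ENNReal.ofReal π.theta * volume (K \ N) := by
    have h1 : volume K ≤ volume (K \ N) + ENNReal.ofReal (regionC * r ^ 2) := by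
      refine le_trans ?_ (add_le_add le_rfl hNle)
      calc volume K ≤ volume ((K \ N) ∪ N) := measure_mono (by intro x hx; by_cases h : x ∈ N <;>
            simp [hx, h])
        _ ≤ _ := measure_union_le _ _
    have hdt : volume (K \ N) ≠ ⊤ := ne_top_of_le_ne_top hKt (measure_mono Set.sdiff_subset)
    have h2 := ENNReal.toReal_mono (ENNReal.add_ne_top.mpr ⟨hdt, ENNReal.ofReal_ne_top⟩) h1
    rw [ENNReal.toReal_add hdt ENNReal.ofReal_ne_top, ENNReal.toReal_ofReal (by positivity),
      ← hV] at h2
    have h3 : π.theta * (regionC * r ^ 2) ≤ π.delta / 2 * V := by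
      have e : π.theta * r = 18 * π.delta := π.theta_mul
      have h : π.theta * (regionC * r ^ 2) = π.delta * (18 * regionC * r) := by
        calc π.theta * (regionC * r ^ 2) = π.theta * r * (regionC * r) := by ring
          _ = _ := by rw [e]; ring
      have h' : r * (36 * (regionC + 1)) ≤ V₀ :=
        (le_div_iff₀ (by positivity)).mp (min_le_right _ _)
      rw [h, show π.delta / 2 * V = π.delta * (V / 2) by ring]
      refine mul_le_mul_of_nonneg_left ?_ hd0.le
      linarith
    rw [← ENNReal.ofReal_toReal hKt, ← ENNReal.ofReal_toReal hdt,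
      ← ENNReal.ofReal_mul (by linarith), ← ENNReal.ofReal_mul hθ0.le,
      ← ENNReal.ofReal_add (mul_nonneg (by linarith) ENNReal.toReal_nonneg)
        (mul_nonneg hθ0.le ENNReal.toReal_nonneg)]
    refine ENNReal.ofReal_le_ofReal ?_
    rw [← hV]
    have h4 := mul_le_mul_of_nonneg_left h2 hθ0.le
    linarith
  have hsplit : ∀ S : Set E3, S ⊆ K → volume S ≤ ∑ i, volume (S ∩ (Φ i).cyl (B i)) := fun S hS =>
    calc volume S ≤ volume (⋃ i, S ∩ (Φ i).cyl (B i)) := measure_mono fun x hx => by
          obtain ⟨i, hi⟩ := Set.mem_iUnion.mp (hcov (hS hx))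
          exact Set.mem_iUnion.mpr ⟨i, hx, hi⟩
      _ ≤ _ := measure_iUnion_fintype_le _ _
  have hsum : ENNReal.ofReal (V * (1 - π.delta / 2)) ≤
      ENNReal.ofReal (3 * (1 - π.delta) * V) *
        ∑ i, volume (B i) / volume ((Φ i).shadow K) := by
    refine hlow.trans ?_
    calc ENNReal.ofReal (1 - π.theta) * volume K + ENNReal.ofReal π.theta * volume (K \ N)
        ≤ ENNReal.ofReal (1 - π.theta) * ∑ i, volume (K ∩ (Φ i).cyl (B i)) +
          ENNReal.ofReal π.theta * ∑ i, volume ((K \ N) ∩ (Φ i).cyl (B i)) :=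
          add_le_add (mul_le_mul_right (hsplit K subset_rfl) _)
            (mul_le_mul_right (hsplit _ Set.sdiff_subset) _)
      _ = ∑ i, (ENNReal.ofReal (1 - π.theta) * volume (K ∩ (Φ i).cyl (B i)) +
          ENNReal.ofReal π.theta * volume ((K \ N) ∩ (Φ i).cyl (B i))) := by
          rw [Finset.sum_add_distrib, Finset.mul_sum, Finset.mul_sum]
      _ ≤ ∑ i, ENNReal.ofReal (3 * (1 - π.delta) * V) *
            (volume (B i) / volume ((Φ i).shadow K)) :=
          Finset.sum_le_sum fun i _ => (Φ i).cyl_gain π hK hKc hK1 hKR (hB i)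
      _ = _ := (Finset.mul_sum ..).symm
  have hpos : 0 < 3 * (1 - π.delta) * V := by
    have : 0 < V := hV₀p.trans_le hVp
    have : 0 < 1 - π.delta := by linarith
    positivity
  have hnum : ENNReal.ofReal (3 * (1 - π.delta) * V) * ENNReal.ofReal (1 / 3 + π.delta / 6) ≤
      ENNReal.ofReal (V * (1 - π.delta / 2)) := by
    rw [← ENNReal.ofReal_mul hpos.le]
    refine ENNReal.ofReal_le_ofReal ?_
    have hV0 : 0 ≤ V := (hV₀p.trans_le hVp).le
    have e : 3 * (1 - π.delta) * V * (1 / 3 + π.delta / 6) =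
        V * (1 - π.delta / 2) - V * (π.delta ^ 2 / 2) := by ring
    nlinarith [mul_nonneg hV0 (sq_nonneg π.delta)]
  exact (ENNReal.mul_le_mul_iff_right (ENNReal.ofReal_pos.mpr hpos).ne'
    ENNReal.ofReal_ne_top).mp (hnum.trans hsum)

end Vale.Agent.P243
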