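import Vale.Agent.P243.Chord

/-!
# The gain in a single cylinder
-/

namespace Vale.Agent.P243

open MeasureTheory Set Metric
open scoped RealInnerProductSpace ENNReal

/-- The spread used for kinks. -/
noncomputable def spread : ℝ := 1 / 10 ^ 6

lemma mem_kinks_of_pair {K : Set E3} {a u : E3} (hu : ‖u‖ = 1) (haK : a ∈ K) (f g : E3)
    {σ η : ℝ} (hσ : |σ| = 1) (hfu : ⟪f, u⟫ = σ) (hgu : ⟪g, u⟫ = σ) (hf : ‖f‖ ≤ 66)
    (hg : ‖g‖ ≤ 66) (hgf : 1 / 120 ≤ ‖g - f‖) (hη : 0 ≤ η)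
    (hsf : ∀ z ∈ K, ⟪f, z - a⟫ ≤ η) (hsg : ∀ z ∈ K, ⟪g, z - a⟫ ≤ η) :
    a ∈ kinks K spread η := by
  have hf1 : 1 ≤ ‖f‖ := by
    have h := abs_real_inner_le_norm f u
    rwa [hu, mul_one, hfu, hσ] at h
  have hg1 : 1 ≤ ‖g‖ := by
    have h := abs_real_inner_le_norm g u
    rwa [hu, mul_one, hgu, hσ] at h
  refine ⟨haK, ‖f‖⁻¹ • f, ‖g‖⁻¹ • g, norm_smul_inv_norm (𝕜 := ℝ) ?_,
    norm_smul_inv_norm (𝕜 := ℝ) ?_, ?_, fun z hz => ⟨?_, ?_⟩⟩
  · intro h; rw [h, norm_zero] at hf1; linarith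
  · intro h; rw [h, norm_zero] at hg1; linarith
  · set d := g - f with hd
    set f' := f - σ • u with hf'
    have hsq : σ ^ 2 = 1 := by rw [← sq_abs, hσ, one_pow]
    have hdu : ⟪d, u⟫ = 0 := by rw [hd, inner_sub_left, hgu, hfu, sub_self]
    have hfd : ⟪f, d⟫ = ⟪f', d⟫ := by
      rw [hf', inner_sub_left, real_inner_smul_left, real_inner_comm d u, hdu]; ring
    have hf'n : ‖f'‖ ^ 2 = ‖f‖ ^ 2 - 1 := by
      rw [hf', norm_sub_sq_real, real_inner_smul_right, hfu, norm_smul, hu, Real.norm_eq_abs, hσ]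
      nlinarith
    have hgram : ‖f‖ ^ 2 * ‖g‖ ^ 2 - ⟪f, g⟫ ^ 2 = ‖f‖ ^ 2 * ‖d‖ ^ 2 - ⟪f, d⟫ ^ 2 := by
      rw [hd, norm_sub_sq_real, inner_sub_right, real_inner_self_eq_norm_sq, real_inner_comm g f]
      ring
    have hlow : ‖d‖ ^ 2 ≤ ‖f‖ ^ 2 * ‖g‖ ^ 2 - ⟪f, g⟫ ^ 2 := by
      have h : ⟪f', d⟫ ^ 2 ≤ (‖f'‖ * ‖d‖) ^ 2 := by
        rw [← sq_abs ⟪f', d⟫]
        exact pow_le_pow_left₀ (abs_nonneg _) (abs_real_inner_le_norm f' d) 2
      rw [mul_pow, hf'n] at h
      rw [hgram, hfd]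
      nlinarith
    rw [real_inner_smul_left, real_inner_smul_right, mul_pow, mul_pow, inv_pow, inv_pow]
    have h1 : (0 : ℝ) < ‖f‖ ^ 2 * ‖g‖ ^ 2 := by
      nlinarith [mul_le_mul (one_le_pow₀ (n := 2) hf1) (one_le_pow₀ (n := 2) hg1) zero_le_one
        (by positivity)]
    have h2 : ‖f‖ ^ 2 * ‖g‖ ^ 2 ≤ (66 : ℝ) ^ 2 * 66 ^ 2 :=
      mul_le_mul (pow_le_pow_left₀ (norm_nonneg _) hf 2) (pow_le_pow_left₀ (norm_nonneg _) hg 2)
        (by positivity) (by positivity)
    have h3 : (1 / 120 : ℝ) ^ 2 ≤ ‖d‖ ^ 2 := pow_le_pow_left₀ (by norm_num) hgf 2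
    calc (‖f‖ ^ 2)⁻¹ * ((‖g‖ ^ 2)⁻¹ * ⟪f, g⟫ ^ 2) = ⟪f, g⟫ ^ 2 / (‖f‖ ^ 2 * ‖g‖ ^ 2) := by
          rw [div_eq_mul_inv, mul_inv]; ring
      _ ≤ _ := by
          rw [div_le_iff₀ h1, spread]
          nlinarith
  · rw [real_inner_smul_left, inv_mul_le_iff₀ (by linarith)]
    have := hsf z hz
    nlinarith
  · rw [real_inner_smul_left, inv_mul_le_iff₀ (by linarith)]
    have := hsg z hz
    nlinarith

/-- The smallness of the neighbourhood radius and the resulting gain. -/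
structure Params where
  /-- The radius. -/
  r : ℝ
  r_pos : 0 < r
  r_le : r ≤ 1 / 20

namespace Params

variable (π : Params)

/-- The tolerance. -/
noncomputable def eta : ℝ := π.r ^ 2 / 32

/-- The gain. -/
noncomputable def delta : ℝ := π.eta ^ 3 / 20000

/-- The weight of the discounted region. -/
noncomputable def theta : ℝ := 18 * π.delta / π.r

lemma eta_pos : 0 < π.eta := by have := π.r_pos; unfold eta; positivity

lemma eta_le : π.eta ≤ π.r := by
  have := π.r_pos; have := π.r_le; unfold eta; nlinarith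

lemma delta_pos : 0 < π.delta := by have := π.eta_pos; unfold delta; positivity

lemma delta_le : 18 * π.delta ≤ π.r := by
  have h0 := π.eta_pos
  have h1 := π.eta_le
  have h2 : π.eta ≤ 1 := by linarith [π.r_le]
  have h3 : π.eta ^ 3 ≤ π.eta := by
    calc π.eta ^ 3 ≤ π.eta ^ 1 := pow_le_pow_of_le_one h0.le h2 (by norm_num)
      _ = π.eta := pow_one _
  unfold delta
  linarith

lemma theta_pos : 0 < π.theta := by
  have := π.r_pos; have := π.delta_pos; unfold theta; positivity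

lemma theta_le : π.theta ≤ 1 := by
  rw [theta, div_le_one π.r_pos]; exact π.delta_le

lemma theta_mul : π.theta * π.r = 18 * π.delta := div_mul_cancel₀ _ π.r_pos.ne'

/-- The discounted region. -/
noncomputable def region (K : Set E3) : Set E3 := kinkNbhd K spread (2 * π.eta) π.r

end Params

namespace Frame

variable (Φ : Frame) {K : Set E3}

/-- The normalised volume `3 c V / |shadow|`. -/
noncomputable def bound (K : Set E3) (c : ℝ≥0∞) : ℝ :=
  3 * (c * volume K).toReal / (volume (Φ.shadow K)).toReal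

lemma exists_perp : ∃ ψ : E3, ⟪ψ, Φ.dir⟫ = 0 ∧ ‖ψ‖ = 1 / 6 := by
  set x := Φ.lin (EuclideanSpace.single 0 1, 0) with hx
  set y := x - ⟪x, Φ.dir⟫ • Φ.dir with hy
  have hy0 : y ≠ 0 := by
    intro h
    have h1 : Φ.lin (EuclideanSpace.single 0 1, 0) = Φ.lin (0, ⟪x, Φ.dir⟫) := by
      rw [← hx, show ((0 : E2), ⟪x, Φ.dir⟫) = ⟪x, Φ.dir⟫ • ((0 : E2), (1 : ℝ)) by simp, map_smul]
      exact sub_eq_zero.mp h
    have h2 := congrArg (fun q : E2 × ℝ => q.1 0) (Φ.lin.injective h1)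
    simp at h2
  refine ⟨(1 / 6 * ‖y‖⁻¹) • y, ?_, ?_⟩
  · rw [real_inner_smul_left, hy, inner_sub_left, real_inner_smul_left,
      real_inner_self_eq_norm_sq, Φ.norm_dir]
    ring
  · rw [norm_smul, Real.norm_of_nonneg (by positivity), mul_assoc,
      inv_mul_cancel₀ (norm_ne_zero_iff.mpr hy0), mul_one]

lemma shadow_pos (hK : closedBall (0 : E3) (1 / 10) ⊆ K) : 0 < volume (Φ.shadow K) := by
  have hopen : IsOpen (Prod.fst '' (Φ.pt ⁻¹' ball (0 : E3) (1 / 10))) :=
    isOpenMap_fst _ (isOpen_ball.preimage Φ.continuous_pt)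
  have hne : (Prod.fst '' (Φ.pt ⁻¹' ball (0 : E3) (1 / 10))).Nonempty :=
    ⟨_, Φ.homeo.symm 0, by
      show Φ.pt (Φ.homeo.symm 0) ∈ ball (0 : E3) (1 / 10)
      rw [← Φ.homeo_apply, Homeomorph.apply_symm_apply]
      exact mem_ball_self (by norm_num), rfl⟩
  refine (hopen.measure_pos volume hne).trans_le (measure_mono ?_)
  rintro _ ⟨⟨y, s⟩, hs, rfl⟩
  exact ⟨s, hK (ball_subset_closedBall hs)⟩

lemma cV_le {c : ℝ≥0∞} (hK : IsCompact K) (hKc : Convex ℝ K) (hKR : K ⊆ closedBall 0 3)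
    (hc : ∀ S : Set E3, MeasurableSet S →
      (volume : Measure E2).prod (volume : Measure ℝ) (Φ.pt ⁻¹' S) = c * volume S) :
    c * volume K ≤ 6 * volume (Φ.shadow K) := by
  rw [← Φ.lintegral_len hK hc]
  calc ∫⁻ y, ENNReal.ofReal (Φ.len K y) ≤ ∫⁻ y, (Φ.shadow K).indicator (fun _ => 6) y := by
        refine lintegral_mono fun y => ?_
        by_cases hy : y ∈ Φ.shadow K
        · rw [Set.indicator_of_mem hy]
          calc ENNReal.ofReal (Φ.len K y) ≤ ENNReal.ofReal 6 :=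
                ENNReal.ofReal_le_ofReal (by
                  have := Φ.len_le hK hKc hKR y (by norm_num); linarith)
            _ = 6 := by norm_num
        · have : Φ.fib K y = ∅ := Set.not_nonempty_iff_eq_empty.mp hy
          simp [len, this]
    _ = _ := lintegral_indicator_const (Φ.isCompact_shadow hK).measurableSet 6

/-- The pointwise gain on a line. -/
lemma line_gain (π : Params) {c : ℝ≥0∞} (hK : IsCompact K) (hKc : Convex ℝ K)
    (hK1 : closedBall (0 : E3) (1 / 10) ⊆ K) (hKR : K ⊆ closedBall 0 3)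
    (hc : ∀ S : Set E3, MeasurableSet S →
      (volume : Measure E2).prod (volume : Measure ℝ) (Φ.pt ⁻¹' S) = c * volume S)
    (y : E2) :
    ENNReal.ofReal (1 - π.theta) * volume (Φ.fib K y) +
        ENNReal.ofReal π.theta * volume (Φ.fib (K \ π.region K) y) ≤
      ENNReal.ofReal ((1 - π.delta) * Φ.bound K c) := by
  set P := (volume (Φ.shadow K)).toReal with hP
  have hPt : volume (Φ.shadow K) ≠ ⊤ := (Φ.isCompact_shadow hK).measure_lt_top.ne
  have hP0 : 0 < P := ENNReal.toReal_pos (Φ.shadow_pos hK1).ne' hPt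
  have hcVt : c * volume K ≠ ⊤ :=
    ne_top_of_le_ne_top (ENNReal.mul_ne_top (by norm_num) hPt) (Φ.cV_le hK hKc hKR hc)
  set L := Φ.bound K c with hL
  have hLP : L * P = 3 * (c * volume K).toReal := by
    rw [hL, bound, ← hP, div_mul_cancel₀ _ hP0.ne']
  have hlen : ∀ y' ∈ Φ.shadow K, Φ.len K y' ≤ L := by
    intro y' hy'
    have h := ENNReal.toReal_mono hcVt (Φ.chord_le hK hKc hc hy')
    rw [ENNReal.toReal_mul (a := ENNReal.ofReal (Φ.len K y' / 3)), ENNReal.toReal_ofReal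
      (div_nonneg (Φ.len_nonneg _) (by norm_num)), ← hP] at h
    exact le_of_mul_le_mul_right (by linarith) hP0
  have hL18 : L ≤ 18 := by
    have h := ENNReal.toReal_mono (ENNReal.mul_ne_top (by norm_num) hPt) (Φ.cV_le hK hKc hKR hc)
    rw [ENNReal.toReal_mul (a := (6 : ℝ≥0∞)), ← hP] at h
    simp only [ENNReal.toReal_ofNat] at h
    exact le_of_mul_le_mul_right (by linarith) hP0
  have hu := Φ.norm_dir
  have hL5 : 1 / 5 ≤ L := by
    set q := Φ.homeo.symm 0
    have hq : Φ.pt q = 0 := by rw [← Φ.homeo_apply, Homeomorph.apply_symm_apply]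
    have h : ∀ e : ℝ, |e| ≤ 1 / 10 → q.2 + e ∈ Φ.fib K q.1 := by
      intro e he
      show Φ.pt _ ∈ K
      refine hK1 (mem_closedBall_zero_iff.mpr ?_)
      have h := Φ.pt_diff q.1 (q.2 + e) q.2
      rw [Prod.mk.eta, hq, sub_zero, add_sub_cancel_left] at h
      rw [h, norm_smul, hu, mul_one]
      exact he
    have h1 := h (-(1 / 10)) (by norm_num)
    have h2 := h (1 / 10) (by norm_num)
    have h3 := Φ.le_len hK hKc h1 h2
    have h4 := hlen q.1 ⟨_, h1⟩
    linarith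
  have hd0 := π.delta_pos
  have hdr := π.delta_le
  have hd1 : π.delta ≤ 1 / 2 := by linarith [π.r_le]
  have hθ0 := π.theta_pos
  have hθ1 := π.theta_le
  have hmono : volume (Φ.fib (K \ π.region K) y) ≤ volume (Φ.fib K y) :=
    measure_mono fun s hs => hs.1
  have hfibt : volume (Φ.fib K y) ≠ ⊤ := (Φ.isCompact_fib hK y).measure_lt_top.ne
  rcases le_or_gt (Φ.len K y) ((1 - π.delta) * L) with hcase | hcase
  · calc ENNReal.ofReal (1 - π.theta) * volume (Φ.fib K y) +
          ENNReal.ofReal π.theta * volume (Φ.fib (K \ π.region K) y)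
        ≤ ENNReal.ofReal (1 - π.theta) * volume (Φ.fib K y) +
          ENNReal.ofReal π.theta * volume (Φ.fib K y) := by gcongr
      _ = ENNReal.ofReal (Φ.len K y) := by
          rw [← add_mul, ← ENNReal.ofReal_add (by linarith) hθ0.le, sub_add_cancel,
            ENNReal.ofReal_one, one_mul, Φ.ofReal_len hK]
      _ ≤ _ := ENNReal.ofReal_le_ofReal hcase
  -- a chord close to the bound has a kinked endpoint
  set l := Φ.len K y with hl
  have hl10 : 1 / 10 ≤ l := by nlinarith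
  have hy : y ∈ Φ.shadow K := by
    by_contra h
    have : Φ.fib K y = ∅ := Set.not_nonempty_iff_eq_empty.mp h
    have : l = 0 := by simp [hl, len, this]
    linarith
  obtain ⟨s₁, s₂, hle, he, hls⟩ := Φ.fib_eq_Icc hK hKc hy
  have hl6 : l ≤ 6 := by have := Φ.len_le hK hKc hKR y (by norm_num); linarith
  set a := Φ.pt (y, s₂) with ha
  set b := Φ.pt (y, s₁) with hb
  have haK : a ∈ K := by
    have : s₂ ∈ Φ.fib K y := by rw [he]; exact right_mem_Icc.mpr hle
    exact this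
  have hbK : b ∈ K := by
    have : s₁ ∈ Φ.fib K y := by rw [he]; exact left_mem_Icc.mpr hle
    exact this
  have hab : a - b = l • Φ.dir := by rw [ha, hb, Φ.pt_diff, hl, hls]
  have he0 := π.eta_pos
  have he1 : π.eta ≤ 1 := by linarith [π.eta_le, π.r_le]
  have hdiam : ∀ z ∈ K, ∀ w ∈ K, ‖z - w‖ ≤ 6 := fun z hz w hw => by
    have := norm_sub_le z w
    have := mem_closedBall_zero_iff.mp (hKR hz)
    have := mem_closedBall_zero_iff.mp (hKR hw)
    linarith
  have key : ∀ ψ : E3, ⟪ψ, Φ.dir⟫ = 0 → ‖ψ‖ ≤ 1 / 6 →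
      ∃ f : E3, ⟪f, Φ.dir⟫ = 1 ∧ ‖f‖ ≤ 65 ∧
        ∀ z ∈ K, ∀ w ∈ K, ⟪f, z - a⟫ - ⟪f, w - b⟫ + l * ⟪ψ, w - b⟫ ≤ 2 * π.eta := by
    intro ψ hψ hψn
    have hψd : ∀ z ∈ K, ∀ w ∈ K, |⟪ψ, z - w⟫| ≤ 1 := fun z hz w hw =>
      (abs_real_inner_le_norm _ _).trans (by
        calc ‖ψ‖ * ‖z - w‖ ≤ 1 / 6 * 6 :=
              mul_le_mul hψn (hdiam z hz w hw) (norm_nonneg _) (by norm_num)
          _ = 1 := by norm_num)
    let v : E2 →ₗ[ℝ] ℝ :=
      { toFun := fun p => ⟪ψ, Φ.lin (p, 0)⟫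
        map_add' := fun p q => by rw [← inner_add_right, ← map_add]; simp
        map_smul' := fun t p => by
          rw [RingHom.id_apply, smul_eq_mul, ← real_inner_smul_right, ← map_smul]; simp }
    have hvpt : ∀ q q' : E2 × ℝ, ⟪ψ, Φ.pt q - Φ.pt q'⟫ = v (q.1 - q'.1) := by
      intro q q'
      show _ = ⟪ψ, Φ.lin (q.1 - q'.1, 0)⟫
      have hq : q - q' = (q.1 - q'.1, (0 : ℝ)) + (q.2 - q'.2) • ((0 : E2), (1 : ℝ)) := by
        ext <;> simp
      simp only [pt, add_sub_add_left_eq_sub]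
      rw [← map_sub, hq, map_add, map_smul, inner_add_right, real_inner_smul_right]
      simp only [dir] at hψ
      rw [hψ, mul_zero, add_zero]
    have hv : ∀ p ∈ Φ.shadow K, ∀ q ∈ Φ.shadow K, v (p - q) ≤ 1 := by
      rintro p ⟨s, hs⟩ q ⟨s', hs'⟩
      rw [← hvpt (p, s) (q, s')]
      exact (abs_le.mp (hψd _ hs _ hs')).2
    have hyp : ∀ z ∈ K, ∀ w ∈ K, ∀ t : ℝ, z - w = t • Φ.dir →
        t - l + l * ⟪ψ, w - b⟫ ≤ π.eta := by
      intro z hz w hw t hzw
      by_contra hcon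
      push Not at hcon
      obtain ⟨⟨y₁, s'⟩, hq⟩ := Φ.homeo.surjective z
      obtain ⟨⟨y₂, s⟩, hq'⟩ := Φ.homeo.surjective w
      rw [Φ.homeo_apply] at hq hq'
      subst hq hq'
      have hlin : Φ.lin ((y₁, s') - (y₂, s)) = Φ.lin ((0 : E2), t) := by
        rw [show ((0 : E2), t) = t • ((0 : E2), (1 : ℝ)) by simp, map_smul, map_sub]
        simpa [pt, dir] using hzw
      have hh := Φ.lin.injective hlin
      simp only [Prod.mk_sub_mk, Prod.mk.injEq, sub_eq_zero] at hh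
      obtain ⟨rfl, hst⟩ := hh
      rw [hb, hvpt] at hcon
      have h := Φ.chord_le_excess hK hKc hKR hc hy (by linarith) v hv he0 he1 hw hz
        (by rw [← hl, hst]; linarith)
      have h' := ENNReal.toReal_mono hcVt h
      rw [ENNReal.toReal_mul (a := ENNReal.ofReal _), ← hP, ← hl,
        ENNReal.toReal_ofReal (by positivity)] at h'
      have h3 : (l / 3 + π.eta ^ 3 / 2304) ≤ L / 3 :=
        le_of_mul_le_mul_right (by linarith) hP0
      have h4 : π.eta ^ 3 = 20000 * π.delta := by rw [Params.delta]; ring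
      have h5 : π.delta * L ≤ π.delta * 18 := mul_le_mul_of_nonneg_left hL18 hd0.le
      linarith
    obtain ⟨f, hfu, hf⟩ := Φ.exists_separating hK hKc haK hbK hab he0 ψ hyp
    refine ⟨f, hfu, ?_, hf⟩
    rcases eq_or_ne f 0 with h | h
    · rw [h, norm_zero]; norm_num
    set n := ‖f‖⁻¹ • f with hn
    have hn1 : ‖n‖ = 1 := norm_smul_inv_norm (𝕜 := ℝ) h
    have hz : ∀ e : ℝ, |e| ≤ 1 / 10 → e • n ∈ K := fun e he =>
      hK1 (by rw [mem_closedBall_zero_iff, norm_smul, hn1, mul_one]; exact he)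
    have h1 := hf _ (hz (1 / 10) (by norm_num)) _ (hz (-(1 / 10)) (by norm_num))
    have h2 := mul_le_mul_of_nonneg_left
      (abs_le.mp (hψd _ (hz (-(1 / 10)) (by norm_num)) _ hbK)).1 (by linarith : (0 : ℝ) ≤ l)
    have h3 : ⟪f, n⟫ = ‖f‖ := by
      rw [hn, real_inner_smul_right, real_inner_self_eq_norm_sq, pow_two,
        inv_mul_cancel_left₀ (norm_ne_zero_iff.mpr h)]
    have h4 : ⟪f, a⟫ - ⟪f, b⟫ = l := by
      rw [← inner_sub_right, hab, real_inner_smul_right, hfu, mul_one]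
    rw [inner_sub_right, inner_sub_right f, real_inner_smul_right f n, real_inner_smul_right f n,
      h3] at h1
    linarith [π.eta_le, π.r_le]
  obtain ⟨ψ, hψu, hψn⟩ := Φ.exists_perp
  obtain ⟨f₀, hf0u, hf0n, hf0⟩ := key 0 (by simp) (by simp)
  obtain ⟨g, hgu, hgn, hg⟩ := key ψ hψu hψn.le
  simp only [inner_zero_left, mul_zero, add_zero] at hf0
  set p := l • ψ with hp
  have hpn : 1 / 60 ≤ ‖p‖ := by
    rw [hp, norm_smul, Real.norm_of_nonneg (by linarith), hψn]; linarith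
  have hpn1 : ‖p‖ ≤ 1 := by
    rw [hp, norm_smul, Real.norm_of_nonneg (by linarith), hψn]; linarith
  have hka : ∀ z ∈ K, ⟪f₀, z - a⟫ ≤ 2 * π.eta ∧ ⟪g, z - a⟫ ≤ 2 * π.eta := fun z hz => by
    have h1 := hf0 z hz b hbK
    have h2 := hg z hz b hbK
    simp only [sub_self, inner_zero_right, mul_zero, sub_zero, add_zero] at h1 h2
    exact ⟨h1, h2⟩
  have hkb : ∀ w ∈ K, ⟪-f₀, w - b⟫ ≤ 2 * π.eta ∧ ⟪p - g, w - b⟫ ≤ 2 * π.eta := fun w hw => by
    have h1 := hf0 a haK w hw
    have h2 := hg a haK w hw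
    simp only [sub_self, inner_zero_right, zero_sub] at h1 h2
    rw [inner_neg_left, inner_sub_left, hp, real_inner_smul_left]
    constructor <;> linarith
  have hend : a ∈ kinks K spread (2 * π.eta) ∨ b ∈ kinks K spread (2 * π.eta) := by
    by_cases hgf : 1 / 120 ≤ ‖g - f₀‖
    · exact Or.inl (mem_kinks_of_pair hu haK f₀ g (σ := 1) (by simp) hf0u hgu (by linarith)
        (by linarith) hgf (by linarith) (fun z hz => (hka z hz).1) (fun z hz => (hka z hz).2))
    · push Not at hgf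
      refine Or.inr (mem_kinks_of_pair hu hbK (-f₀) (p - g) (σ := -1) (by simp)
        (by rw [inner_neg_left, hf0u]) ?_ (by rw [norm_neg]; linarith) ?_ ?_ (by linarith)
        (fun z hz => (hkb z hz).1) (fun z hz => (hkb z hz).2))
      · rw [inner_sub_left, hgu, hp, real_inner_smul_left, hψu]; ring
      · linarith [norm_sub_le p g]
      · rw [show p - g - -f₀ = p - (g - f₀) by abel]
        have := norm_sub_norm_le p (g - f₀)
        linarith
  have hr0 := π.r_pos
  have hrl : π.r ≤ l := by linarith [π.r_le]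
  have hsub : volume (Φ.fib (K \ π.region K) y) ≤ ENNReal.ofReal (l - π.r) := by
    rcases hend with hka | hkb
    · refine (measure_mono (t := Icc s₁ (s₂ - π.r)) ?_).trans ?_
      · rintro s ⟨hsK, hsN⟩
        have hs : s ∈ Φ.fib K y := hsK
        rw [he] at hs
        refine ⟨hs.1, ?_⟩
        by_contra hcon
        push Not at hcon
        refine hsN (Set.mem_biUnion hka ?_)
        rw [mem_ball, dist_eq_norm, ha, Φ.pt_diff, norm_smul, hu, mul_one, Real.norm_eq_abs,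
          abs_of_nonpos (by linarith [hs.2])]
        linarith
      · rw [Real.volume_Icc]
        exact ENNReal.ofReal_le_ofReal (by linarith)
    · refine (measure_mono (t := Icc (s₁ + π.r) s₂) ?_).trans ?_
      · rintro s ⟨hsK, hsN⟩
        have hs : s ∈ Φ.fib K y := hsK
        rw [he] at hs
        refine ⟨?_, hs.2⟩
        by_contra hcon
        push Not at hcon
        refine hsN (Set.mem_biUnion hkb ?_)
        rw [mem_ball, dist_eq_norm, hb, Φ.pt_diff, norm_smul, hu, mul_one, Real.norm_eq_abs,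
          abs_of_nonneg (by linarith [hs.1])]
        linarith
      · rw [Real.volume_Icc]
        exact ENNReal.ofReal_le_ofReal (by linarith)
  calc ENNReal.ofReal (1 - π.theta) * volume (Φ.fib K y) +
        ENNReal.ofReal π.theta * volume (Φ.fib (K \ π.region K) y)
      ≤ ENNReal.ofReal (1 - π.theta) * ENNReal.ofReal l +
        ENNReal.ofReal π.theta * ENNReal.ofReal (l - π.r) := by
          rw [hl, Φ.ofReal_len hK, ← hl]; gcongr
    _ = ENNReal.ofReal (l - π.theta * π.r) := by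
        rw [← ENNReal.ofReal_mul (by linarith), ← ENNReal.ofReal_mul hθ0.le,
          ← ENNReal.ofReal_add (mul_nonneg (by linarith) (by linarith))
            (mul_nonneg hθ0.le (by linarith))]
        ring_nf
    _ ≤ _ := ENNReal.ofReal_le_ofReal (by
        have h1 := hlen y hy
        have h2 : π.delta * L ≤ π.delta * 18 := mul_le_mul_of_nonneg_left hL18 hd0.le
        rw [← hl] at h1
        rw [π.theta_mul]
        linarith)

end Frame

end Vale.Agent.P243
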