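import Mathlib

/-!
# The kinked points of a convex body have small neighbourhoods

A point of `K` is kinked if two separated unit vectors nearly support `K` there.  Points of this
kind at mutual distance `4 r` number `O(1/r)`: each has a two-dimensional set of exterior points
whose nearest points in `K` are within `r` of it.
-/

namespace Vale.Agent.P243

open MeasureTheory Set Metric
open scoped RealInnerProductSpace

/-- Three-dimensional Euclidean space. -/
abbrev E3 := EuclideanSpace ℝ (Fin 3)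

/-- The kinked points of `K` with spread `c` and tolerance `η`. -/
def kinks (K : Set E3) (c η : ℝ) : Set E3 :=
  {a | a ∈ K ∧ ∃ n₁ n₂ : E3, ‖n₁‖ = 1 ∧ ‖n₂‖ = 1 ∧ ⟪n₁, n₂⟫ ^ 2 ≤ 1 - c ^ 2 ∧
    ∀ z ∈ K, ⟪n₁, z - a⟫ ≤ η ∧ ⟪n₂, z - a⟫ ≤ η}

/-- The open `r`-neighbourhood of the kinked points. -/
def kinkNbhd (K : Set E3) (c η r : ℝ) : Set E3 := ⋃ a ∈ kinks K c η, ball a r

lemma isOpen_kinkNbhd (K : Set E3) (c η r : ℝ) : IsOpen (kinkNbhd K c η r) :=
  isOpen_biUnion fun _ _ => isOpen_ball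

lemma owned_arith (q g1 g2 s t r η w : ℝ) (hr : 0 < r) (hη : η ≤ r ^ 2 / 16) (hq0 : 0 ≤ q)
    (hs0 : 0 ≤ s) (hs1 : s ≤ 3 / 4) (ht0 : 0 ≤ t) (ht1 : t ≤ 1 / 4) (h1 : g1 ≤ η) (h2 : g2 ≤ η)
    (hw : w ≤ r / 2 * q) (hmain : q ^ 2 ≤ 2 * (s * g1 + t * g2 + w)) : q ≤ 3 / 2 * r := by
  have hr2 : 0 ≤ r ^ 2 / 16 := by positivity
  have i1 : s * g1 ≤ 3 / 4 * (r ^ 2 / 16) :=
    (mul_le_mul_of_nonneg_left (h1.trans hη) hs0).trans (mul_le_mul_of_nonneg_right hs1 hr2)
  have i2 : t * g2 ≤ 1 / 4 * (r ^ 2 / 16) :=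
    (mul_le_mul_of_nonneg_left (h2.trans hη) ht0).trans (mul_le_mul_of_nonneg_right ht1 hr2)
  by_contra h
  push Not at h
  have : r * q + r ^ 2 / 4 < q ^ 2 := by nlinarith
  linarith

lemma volume_box {ι : Type*} [Fintype ι] {F : Type*} [NormedAddCommGroup F] [InnerProductSpace ℝ F]
    [FiniteDimensional ℝ F] [MeasurableSpace F] [BorelSpace F] (b : OrthonormalBasis ι ℝ F) (a : F)
    (lo hi : ι → ℝ) :
    volume {x : F | ∀ i, b.repr (x - a) i ∈ Icc (lo i) (hi i)} =
      ∏ i, ENNReal.ofReal (hi i - lo i) := by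
  have hset : {x : F | ∀ i, b.repr (x - a) i ∈ Icc (lo i) (hi i)} =
      (fun x => x + -a) ⁻¹' {x : F | ∀ i, b.repr x i ∈ Icc (lo i) (hi i)} := by
    ext x; simp [sub_eq_add_neg]
  rw [hset, measure_preimage_add_right]
  have hmp := (PiLp.volume_preserving_ofLp ι).comp b.measurePreserving_repr
  have hset2 : {x : F | ∀ i, b.repr x i ∈ Icc (lo i) (hi i)} =
      (WithLp.ofLp ∘ b.repr) ⁻¹' (Set.univ.pi fun i => Icc (lo i) (hi i)) := by
    ext x
    simp only [Set.mem_preimage, Set.mem_univ_pi, Function.comp_apply]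
    exact Iff.rfl
  rw [hset2, hmp.measure_preimage
    (MeasurableSet.univ_pi fun i => measurableSet_Icc).nullMeasurableSet, volume_pi_pi]
  simp [Real.volume_Icc]

/-- Each kinked point owns a piece of volume `c r / 64` whose nearest points in `K` are within
`3 r / 2` of it. -/
lemma exists_owned (K : Set E3) (R c η r : ℝ) (hKR : K ⊆ closedBall 0 R) (hc : 0 < c)
    (hc1 : c ≤ 1) (hr : 0 < r) (hr1 : r ≤ 1) (hη : η ≤ r ^ 2 / 16) (a : E3)
    (ha : a ∈ kinks K c η) :
    ∃ T : Set E3, T ⊆ closedBall 0 (R + 3) ∧ MeasurableSet T ∧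
      ENNReal.ofReal (c * r / 64) ≤ volume T ∧
      ∀ y ∈ T, ∀ z ∈ K, ‖y - z‖ ≤ ‖y - a‖ → ‖z - a‖ ≤ 3 / 2 * r := by
  obtain ⟨haK, n₁, n₂, h1, h2, hsp, hsup⟩ := ha
  set α := ⟪n₁, n₂⟫ with hα
  set β := √(1 - α ^ 2) with hβdef
  have hβ2 : 0 ≤ 1 - α ^ 2 := by nlinarith [sq_nonneg c]
  have hcβ : c ≤ β := Real.le_sqrt_of_sq_le (by linarith)
  have hβ0 : 0 < β := hc.trans_le hcβ
  have hβ1 : β ≤ 1 := Real.sqrt_le_one.mpr (by nlinarith [sq_nonneg α])
  set f₂ := β⁻¹ • (n₂ - α • n₁) with hf₂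
  have hf₂n : ‖f₂‖ = 1 := by
    have hsq : ‖n₂ - α • n₁‖ ^ 2 = β ^ 2 := by
      rw [hβdef, Real.sq_sqrt hβ2, norm_sub_sq_real, norm_smul, real_inner_smul_right,
        real_inner_comm n₁ n₂, ← hα, h1, h2, Real.norm_eq_abs, mul_one, sq_abs]
      ring
    have hn : ‖n₂ - α • n₁‖ = β := (sq_eq_sq₀ (norm_nonneg _) hβ0.le).mp hsq
    rw [hf₂, norm_smul, hn, norm_inv, Real.norm_of_nonneg hβ0.le, inv_mul_cancel₀ hβ0.ne']
  have hf₁₂ : ⟪n₁, f₂⟫ = 0 := by
    rw [hf₂, real_inner_smul_right, inner_sub_right, real_inner_smul_right,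
      real_inner_self_eq_norm_sq, h1, ← hα]
    ring
  have hon : Orthonormal ℝ (({(0 : Fin 3), 1} : Set (Fin 3)).domRestrict
      (![n₁, f₂, 0] : Fin 3 → E3)) := by
    rw [orthonormal_iff_ite]
    rintro ⟨i, hi⟩ ⟨j, hj⟩
    simp only [Set.mem_insert_iff, Set.mem_singleton_iff] at hi hj
    rcases hi with rfl | rfl <;> rcases hj with rfl | rfl <;>
      simp [Set.domRestrict_apply, h1, hf₂n, hf₁₂, real_inner_comm n₁ f₂]
  obtain ⟨b, hb⟩ := hon.exists_orthonormalBasis_extension_of_card_eq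
    (show Module.finrank ℝ E3 = Fintype.card (Fin 3) by simp)
  have hb0 : b 0 = n₁ := by simpa using hb 0 (by simp)
  have hb1 : b 1 = f₂ := by simpa using hb 1 (by simp)
  let lo : Fin 3 → ℝ := ![1 / 4, 0, 0]
  let hi : Fin 3 → ℝ := ![1 / 2, β / 4, r / 2]
  refine ⟨{x | ∀ i, b.repr (x - a) i ∈ Icc (lo i) (hi i)}, ?_, ?_, ?_, ?_⟩
  · intro x hx
    rw [mem_closedBall_zero_iff]
    have e0 := hx 0
    have e1 := hx 1
    have e2 := hx 2
    simp only [lo, hi, mem_Icc, Matrix.cons_val_zero, Matrix.cons_val_one,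
      Matrix.cons_val] at e0 e1 e2
    have hn : ‖x - a‖ ≤ 3 := by
      rw [← b.repr.norm_map (x - a)]
      refine (pow_le_pow_iff_left₀ (norm_nonneg _) (by norm_num) two_ne_zero).mp ?_
      rw [EuclideanSpace.norm_sq_eq, Fin.sum_univ_three]
      simp only [Real.norm_eq_abs, sq_abs]
      nlinarith
    have := norm_le_norm_add_norm_sub' x a
    have ha' : ‖a‖ ≤ R := mem_closedBall_zero_iff.mp (hKR haK)
    linarith
  · have : {x : E3 | ∀ i, b.repr (x - a) i ∈ Icc (lo i) (hi i)} =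
        ⋂ i, {x : E3 | b.repr (x - a) i ∈ Icc (lo i) (hi i)} := Set.ofPred_forall _
    rw [this]
    refine MeasurableSet.iInter fun i => measurableSet_Icc.preimage ?_
    exact Continuous.measurable (by fun_prop)
  · rw [volume_box, Fin.prod_univ_three]
    simp only [lo, hi, Matrix.cons_val_zero, Matrix.cons_val_one, Matrix.cons_val]
    rw [← ENNReal.ofReal_mul (by norm_num), ← ENNReal.ofReal_mul (by nlinarith)]
    refine ENNReal.ofReal_le_ofReal ?_
    nlinarith
  · intro y hy z hz hyz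
    have e0 := hy 0
    have e1 := hy 1
    have e2 := hy 2
    simp only [lo, hi, mem_Icc, Matrix.cons_val_zero, Matrix.cons_val_one,
      Matrix.cons_val] at e0 e1 e2
    set x0 := b.repr (y - a) 0
    set x1 := b.repr (y - a) 1
    set x2 := b.repr (y - a) 2
    have hdec : y - a = (x0 - α * (x1 / β)) • n₁ + (x1 / β) • n₂ + x2 • b 2 := by
      conv_lhs => rw [← b.sum_repr (y - a)]
      rw [Fin.sum_univ_three, hb0, hb1, hf₂]
      simp only [smul_sub, smul_smul, sub_smul]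
      rw [show x1 * β⁻¹ = x1 / β by rw [div_eq_mul_inv],
        show x1 * (β⁻¹ * α) = α * (x1 / β) by rw [div_eq_mul_inv]; ring]
      abel
    set t := x1 / β
    set s := x0 - α * t
    have ht0 : 0 ≤ t := div_nonneg e1.1 hβ0.le
    have ht4 : t ≤ 1 / 4 := (div_le_iff₀ hβ0).mpr (by linarith)
    have hαa : |α| ≤ 1 := by nlinarith [sq_abs α, abs_nonneg α]
    have hαt : |α * t| ≤ 1 / 4 := by
      rw [abs_mul, abs_of_nonneg ht0]; nlinarith [abs_nonneg α]
    have hs0 : 0 ≤ s := by linarith [(abs_le.mp hαt).2]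
    have hs1 : s ≤ 3 / 4 := by linarith [(abs_le.mp hαt).1]
    have hq : ‖z - a‖ ^ 2 ≤ 2 * ⟪y - a, z - a⟫ := by
      have h := pow_le_pow_left₀ (norm_nonneg _) hyz 2
      have e : y - z = (y - a) - (z - a) := by abel
      rw [e, norm_sub_sq_real] at h
      linarith
    rw [hdec, inner_add_left, inner_add_left, real_inner_smul_left, real_inner_smul_left,
      real_inner_smul_left] at hq
    obtain ⟨g1, g2⟩ := hsup z hz
    have g3 : x2 * ⟪b 2, z - a⟫ ≤ r / 2 * ‖z - a‖ := by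
      have h := abs_real_inner_le_norm (b 2) (z - a)
      rw [b.orthonormal.1 2, one_mul] at h
      exact (mul_le_mul_of_nonneg_left (abs_le.mp h).2 e2.1).trans
        (mul_le_mul_of_nonneg_right e2.2 (norm_nonneg _))
    exact owned_arith _ _ _ s t r η _ hr hη (norm_nonneg _) hs0 hs1 ht0 ht4 g1 g2 g3 hq

/-- The neighbourhood of the kinked points has volume `O(r ^ 2)`. -/
lemma volume_kinkNbhd_le (K : Set E3) (hK : IsCompact K) (R c η r : ℝ)
    (hKR : K ⊆ closedBall 0 R) (hc : 0 < c) (hc1 : c ≤ 1) (hr : 0 < r) (hr1 : r ≤ 1)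
    (hη : η ≤ r ^ 2 / 16) :
    volume (kinkNbhd K c η r) ≤
      ENNReal.ofReal ((5 * r) ^ 3 * (64 / (c * r)) *
        (volume (closedBall (0 : E3) (R + 3))).toReal *
        (volume (ball (0 : E3) 1)).toReal) := by
  classical
  set W := (volume (closedBall (0 : E3) (R + 3))).toReal with hW
  have hfinW : volume (closedBall (0 : E3) (R + 3)) ≠ ⊤ := measure_closedBall_lt_top.ne
  have hcr : 0 < c * r / 64 := by positivity
  have hcount : ∀ F : Finset E3, (↑F ⊆ kinks K c η) →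
      (∀ a ∈ F, ∀ b ∈ F, a ≠ b → 4 * r ≤ ‖a - b‖) → (F.card : ℝ) ≤ 64 / (c * r) * W := by
    intro F hF hsep
    rcases F.eq_empty_or_nonempty with rfl | ⟨a₀, ha₀⟩
    · simp only [Finset.card_empty, Nat.cast_zero]
      exact mul_nonneg (by positivity) ENNReal.toReal_nonneg
    have hne : K.Nonempty := ⟨a₀, (hF ha₀).1⟩
    have hT : ∀ a : F, ∃ T : Set E3, T ⊆ closedBall 0 (R + 3) ∧ MeasurableSet T ∧
        ENNReal.ofReal (c * r / 64) ≤ volume T ∧
        ∀ y ∈ T, ∀ z ∈ K, ‖y - z‖ ≤ ‖y - (a : E3)‖ → ‖z - (a : E3)‖ ≤ 3 / 2 * r :=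
      fun a => exists_owned K R c η r hKR hc hc1 hr hr1 hη a (hF a.2)
    choose T hTB hTm hTv hTo using hT
    have hdisj : Pairwise fun a b : F => Disjoint (T a) (T b) := by
      intro a b hab
      rw [Set.disjoint_left]
      intro y hya hyb
      obtain ⟨z, hz, hzmin⟩ := hK.exists_isMinOn hne
        ((continuous_const.sub continuous_id).norm.continuousOn (f := fun z => ‖y - z‖))
      have h1 := hTo a y hya z hz (hzmin (hF a.2).1)
      have h2 := hTo b y hyb z hz (hzmin (hF b.2).1)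
      have h3 := hsep a a.2 b b.2 (fun h => hab (Subtype.ext h))
      have h4 := norm_sub_le_norm_sub_add_norm_sub (a : E3) z b
      rw [norm_sub_rev (a : E3) z] at h4
      linarith
    have h : (F.card : ENNReal) * ENNReal.ofReal (c * r / 64) ≤
        volume (closedBall (0 : E3) (R + 3)) := by
      calc (F.card : ENNReal) * ENNReal.ofReal (c * r / 64)
          = ∑ _a : F, ENNReal.ofReal (c * r / 64) := by simp
        _ ≤ ∑ a : F, volume (T a) := Finset.sum_le_sum fun a _ => hTv a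
        _ = volume (⋃ a, T a) := by rw [measure_iUnion hdisj hTm, tsum_fintype]
        _ ≤ _ := measure_mono (Set.iUnion_subset hTB)
    have h' := ENNReal.toReal_mono hfinW h
    rw [ENNReal.toReal_mul, ENNReal.toReal_natCast, ENNReal.toReal_ofReal hcr.le, ← hW,
      ← le_div_iff₀ hcr] at h'
    refine h'.trans (le_of_eq ?_)
    field_simp
  -- a maximal separated family
  set n₀ := ⌊64 / (c * r) * W⌋₊ with hn₀
  let good : ℕ → Prop := fun n => ∃ F : Finset E3, (↑F ⊆ kinks K c η) ∧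
    (∀ a ∈ F, ∀ b ∈ F, a ≠ b → 4 * r ≤ ‖a - b‖) ∧ F.card = n
  have hg0 : good 0 := ⟨∅, by simp, by simp, rfl⟩
  obtain ⟨F, hF, hsep, hcard⟩ : good (Nat.findGreatest good n₀) :=
    Nat.findGreatest_spec (Nat.zero_le _) hg0
  have hcover : kinks K c η ⊆ ⋃ a ∈ F, ball a (4 * r) := by
    intro x hx
    by_contra hno
    simp only [Set.mem_iUnion, mem_ball, not_exists, not_lt] at hno
    have hxF : x ∉ F := fun hxF => by
      have := hno x hxF
      rw [dist_self] at this
      linarith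
    have hins : good (F.card + 1) := by
      refine ⟨insert x F, ?_, ?_, Finset.card_insert_of_notMem hxF⟩
      · rw [Finset.coe_insert]
        exact Set.insert_subset hx hF
      · intro a ha b hb hab
        rcases Finset.mem_insert.mp ha with ha | ha <;> rcases Finset.mem_insert.mp hb with hb | hb
        · exact absurd (ha.trans hb.symm) hab
        · rw [ha, ← dist_eq_norm]; exact hno b hb
        · rw [hb, ← dist_eq_norm, dist_comm]; exact hno a ha
        · exact hsep a ha b hb hab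
    have hle : F.card + 1 ≤ n₀ := by
      obtain ⟨G, hG, hGs, hGc⟩ := hins
      rw [← hGc]
      exact Nat.le_floor (hcount G hG hGs)
    have := Nat.le_findGreatest hle hins
    omega
  have hsub : kinkNbhd K c η r ⊆ ⋃ a ∈ F, ball a (5 * r) := by
    intro y hy
    simp only [kinkNbhd, Set.mem_iUnion, mem_ball, exists_prop] at hy
    obtain ⟨a, ha, hya⟩ := hy
    obtain ⟨b, hb, hab⟩ := Set.mem_iUnion₂.mp (hcover ha)
    refine Set.mem_iUnion₂.mpr ⟨b, hb, ?_⟩
    rw [mem_ball] at hab ⊢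
    linarith [dist_triangle y a b]
  refine (measure_mono hsub).trans ((measure_biUnion_finset_le F _).trans ?_)
  have hball : ∀ a : E3, volume (ball a (5 * r)) =
      ENNReal.ofReal ((5 * r) ^ 3) * volume (ball (0 : E3) 1) := by
    intro a
    rw [Measure.addHaar_ball volume a (by positivity)]
    simp
  simp only [hball, Finset.sum_const, nsmul_eq_mul]
  rw [ENNReal.ofReal_mul (mul_nonneg (by positivity) ENNReal.toReal_nonneg),
    ENNReal.ofReal_toReal measure_ball_lt_top.ne, ← mul_assoc]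
  refine mul_le_mul_left ?_ _
  rw [← ENNReal.ofReal_natCast, ← ENNReal.ofReal_mul (by positivity)]
  refine ENNReal.ofReal_le_ofReal ?_
  have := hcount F hF hsep
  calc (F.card : ℝ) * (5 * r) ^ 3 ≤ (64 / (c * r) * W) * (5 * r) ^ 3 :=
        mul_le_mul_of_nonneg_right this (by positivity)
    _ = _ := by ring

end Vale.Agent.P243
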