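import Vale.Agent.P243.Gain

/-!
# An affine normalisation of convex bodies
-/

namespace Vale.Agent.P243

open MeasureTheory Set Metric
open scoped RealInnerProductSpace

/-- A maximal inscribed simplex normalises a convex body between two fixed balls. -/
lemma exists_normalisation (K : Set E3) (hK : IsCompact K) (hKc : Convex ℝ K)
    (hne : (interior K).Nonempty) :
    ∃ (M : E3 ≃L[ℝ] E3) (c₀ : E3), closedBall (0 : E3) (1 / 10) ⊆ (fun x => c₀ + M x) '' K ∧
      (fun x => c₀ + M x) '' K ⊆ closedBall (0 : E3) 3 := by
  obtain ⟨p, hp⟩ := hne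
  obtain ⟨ε, hε, hball⟩ := Metric.mem_nhds_iff.mp (mem_interior_iff_mem_nhds.mp hp)
  have hpK : p ∈ K := interior_subset hp
  set e := (EuclideanSpace.basisFun (Fin 3) ℝ).toBasis with he
  have hcont : Continuous fun d : Fin 3 → E3 => |e.det fun i => d i - p| := by
    refine (Continuous.abs ?_)
    simp only [Module.Basis.det_apply]
    refine Continuous.matrix_det (continuous_matrix fun i j => ?_)
    simp only [Module.Basis.toMatrix_apply]
    exact (LinearMap.continuous_of_finiteDimensional (e.coord i)).comp
      (by fun_prop : Continuous fun d : Fin 3 → E3 => d j - p)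
  obtain ⟨d, hdK, hdmax⟩ := (isCompact_univ_pi fun _ : Fin 3 => hK).exists_isMaxOn
    (⟨fun _ => p, fun _ _ => hpK⟩ : (Set.univ.pi fun _ : Fin 3 => K).Nonempty) hcont.continuousOn
  set f : Fin 3 → E3 := fun i => d i - p with hf
  have hfdet : e.det f ≠ 0 := by
    set d₀ : Fin 3 → E3 := fun i => p + (ε / 2) • e i with hd₀
    have h₀ : d₀ ∈ Set.univ.pi fun _ : Fin 3 => K := fun i _ => by
      apply hball
      rw [mem_ball, dist_eq_norm, hd₀, add_sub_cancel_left, norm_smul, he,
        OrthonormalBasis.coe_toBasis, OrthonormalBasis.norm_eq_one, mul_one, Real.norm_eq_abs,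
        abs_of_pos (by positivity)]
      linarith
    have h := isMaxOn_iff.mp hdmax d₀ h₀
    have h1 : (fun i => d₀ i - p) = fun i => (ε / 2) • e i := by funext i; simp [hd₀]
    have h2 : e.det (fun i => (ε / 2) • e i) = (ε / 2) ^ 3 := by
      rw [AlternatingMap.map_smul_univ, e.det_self]
      simp [div_pow]
    intro h0
    simp only [h1, h2] at h
    rw [show (fun i => d i - p) = f from rfl, h0, abs_zero,
      abs_of_pos (by positivity : (0 : ℝ) < (ε / 2) ^ 3)] at h
    linarith [pow_pos (by positivity : (0 : ℝ) < ε / 2) 3]
  obtain ⟨hli, hsp⟩ := (Module.Basis.is_basis_iff_det e).mpr (isUnit_iff_ne_zero.mpr hfdet)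
  set b := Module.Basis.mk hli hsp.ge with hb
  have hbf : ∀ i, b i = f i := fun i => by rw [hb, Module.Basis.mk_apply]
  have hcoord : ∀ z ∈ K, ∀ j, |b.repr (z - p) j| ≤ 1 := by
    intro z hz j
    classical
    have hup : Function.update d j z ∈ Set.univ.pi fun _ : Fin 3 => K := by
      intro i _
      rcases eq_or_ne i j with rfl | hij
      · simpa using hz
      · simpa [hij] using hdK i (Set.mem_univ i)
    have h := isMaxOn_iff.mp hdmax _ hup
    have h1 : (fun i => Function.update d j z i - p) = Function.update f j (z - p) := by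
      funext i
      rcases eq_or_ne i j with rfl | hij
      · simp
      · simp [hij, hf]
    have h2 : e.det (Function.update f j (z - p)) = b.repr (z - p) j * e.det f := by
      conv_lhs => rw [← b.sum_repr (z - p)]
      rw [AlternatingMap.map_update_sum, Finset.sum_eq_single j]
      · rw [AlternatingMap.map_update_smul, hbf, Function.update_eq_self, smul_eq_mul]
      · intro i _ hij
        rw [AlternatingMap.map_update_smul, hbf,
          e.det.map_eq_zero_of_eq _ (i := i) (j := j) (by simp [hij]) hij, smul_zero]
      · simp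
    simp only [h1, h2, abs_mul] at h
    exact le_of_mul_le_mul_right (by rw [one_mul]; exact h) (abs_pos.mpr hfdet)
  set M : E3 ≃L[ℝ] E3 :=
    (b.equiv e (Equiv.refl _)).toContinuousLinearEquiv with hM
  have hMz : ∀ z j, (M z) j = b.repr z j := by
    intro z j
    have h1 : e.repr.toLinearMap ∘ₗ (b.equiv e (Equiv.refl _)).toLinearMap = b.repr.toLinearMap :=
      b.ext fun i => by simp
    have h2 := congrArg (fun L => L z j) h1
    simpa [hM, he] using h2
  set m : E3 := (EuclideanSpace.equiv (Fin 3) ℝ).symm fun _ => 1 / 5 with hm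
  have hmj : ∀ j, m j = 1 / 5 := fun j => rfl
  refine ⟨M, -M p - m, ?_, ?_⟩
  · intro x hx
    rw [mem_closedBall_zero_iff] at hx
    have hxj : ∀ j, |x j| ≤ 1 / 10 := fun j => by
      have h := PiLp.norm_apply_le x j
      rw [Real.norm_eq_abs] at h
      linarith
    refine ⟨M.symm (x + m) + p, ?_, ?_⟩
    · set lam : Fin 3 → ℝ := fun j => (x + m) j with hlam
      have e1 : M.symm (x + m) = ∑ j, lam j • (d j - p) := by
        apply M.injective
        rw [M.apply_symm_apply]
        ext i
        rw [hMz, map_sum]
        simp only [map_smul, Finsupp.coe_finsetSum, Finset.sum_apply, Finsupp.smul_apply,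
          smul_eq_mul]
        rw [Finset.sum_eq_single i]
        · rw [show d i - p = b i from (hbf i).symm, b.repr_self]; simp [hlam]
        · intro j _ hji
          rw [show d j - p = b j from (hbf j).symm, b.repr_self]
          simp [Ne.symm hji]
        · simp
      have hl : ∀ j, 1 / 10 ≤ lam j ∧ lam j ≤ 3 / 10 := fun j => by
        have h1 := abs_le.mp (hxj j)
        simp only [hlam, PiLp.add_apply, hmj]
        constructor <;> linarith
      have hsum : M.symm (x + m) + p =
          ∑ o : Option (Fin 3), (o.elim (1 - ∑ j, lam j) lam) • (o.elim p d) := by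
        rw [e1, Fintype.sum_option]
        simp only [Option.elim_none, Option.elim_some, smul_sub, Finset.sum_sub_distrib,
          sub_smul, one_smul, Finset.sum_smul]
        abel
      rw [hsum]
      refine hKc.sum_mem (fun o _ => ?_) ?_ fun o _ => ?_
      · cases o with
        | none =>
          simp only [Option.elim_none, Fin.sum_univ_three]
          linarith [(hl 0).2, (hl 1).2, (hl 2).2]
        | some j => simp only [Option.elim_some]; linarith [(hl j).1]
      · rw [Fintype.sum_option]; simp
      · cases o with
        | none => exact hpK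
        | some j => exact hdK j (Set.mem_univ j)
    · simp only [map_add, ContinuousLinearEquiv.apply_symm_apply]
      abel
  · rintro _ ⟨z, hz, rfl⟩
    rw [mem_closedBall_zero_iff]
    have hj : ∀ j, ((-M p - m) + M z) j = b.repr (z - p) j - 1 / 5 := fun j => by
      simp only [PiLp.add_apply, PiLp.sub_apply, PiLp.neg_apply, hMz, hmj, map_sub,
        Finsupp.sub_apply]
      ring
    refine (pow_le_pow_iff_left₀ (norm_nonneg _) (by norm_num) two_ne_zero).mp ?_
    rw [EuclideanSpace.norm_sq_eq, Fin.sum_univ_three]
    simp only [Real.norm_eq_abs, sq_abs, hj]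
    have h0 := abs_le.mp (hcoord z hz 0)
    have h1 := abs_le.mp (hcoord z hz 1)
    have h2 := abs_le.mp (hcoord z hz 2)
    nlinarith

end Vale.Agent.P243
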