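import Mathlib

/-!
Ingredients for a covering of the regular tetrahedron by cylinders of relative area below one half.
-/

namespace Vale.Agent.P243.RelArea

open MeasureTheory Set
open scoped RealInnerProductSpace ENNReal

/-- Three-space. -/
abbrev E3 := EuclideanSpace ℝ (Fin 3)

/-- The plane. -/
abbrev E2 := EuclideanSpace ℝ (Fin 2)

/-- The regular tetrahedron with vertices at the even sign vectors. -/
def tetra : Set E3 :=
  {p | 0 ≤ 1 + p 0 + p 1 + p 2 ∧ 0 ≤ 1 + p 0 - p 1 - p 2 ∧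
    0 ≤ 1 - p 0 + p 1 - p 2 ∧ 0 ≤ 1 - p 0 - p 1 + p 2}

theorem tetra_isCompact : IsCompact tetra := by
  refine Metric.isCompact_of_isClosed_isBounded ?_ ?_
  · simp only [tetra, ofPred_and]
    refine IsClosed.inter ?_ (IsClosed.inter ?_ (IsClosed.inter ?_ ?_)) <;>
      exact isClosed_le continuous_const (by fun_prop)
  · refine (Metric.isBounded_iff_subset_closedBall 0).2 ⟨3, fun p hp => ?_⟩
    obtain ⟨h1, h2, h3, h4⟩ := hp
    have e : ‖p‖ ^ 2 = p 0 ^ 2 + p 1 ^ 2 + p 2 ^ 2 := by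
      simp [EuclideanSpace.norm_sq_eq, Fin.sum_univ_three]
    simp only [Metric.mem_closedBall, dist_zero_right]
    nlinarith [norm_nonneg p, sq_nonneg (p 0), sq_nonneg (p 1), sq_nonneg (p 2)]

theorem tetra_convex : Convex ℝ tetra := by
  rintro x ⟨a1, a2, a3, a4⟩ y ⟨b1, b2, b3, b4⟩ s t hs ht hst
  refine ⟨?_, ?_, ?_, ?_⟩ <;> simp <;>
    nlinarith [mul_nonneg hs a1, mul_nonneg ht b1, mul_nonneg hs a2, mul_nonneg ht b2,
      mul_nonneg hs a3, mul_nonneg ht b3, mul_nonneg hs a4, mul_nonneg ht b4]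

theorem tetra_interior : (interior tetra).Nonempty := by
  refine ⟨0, mem_interior.2 ⟨{p | 0 < 1 + p 0 + p 1 + p 2 ∧ 0 < 1 + p 0 - p 1 - p 2 ∧
    0 < 1 - p 0 + p 1 - p 2 ∧ 0 < 1 - p 0 - p 1 + p 2}, ?_, ?_, by simp⟩⟩
  · rintro p ⟨h1, h2, h3, h4⟩
    exact ⟨h1.le, h2.le, h3.le, h4.le⟩
  · simp only [ofPred_and]
    refine IsOpen.inter ?_ (IsOpen.inter ?_ (IsOpen.inter ?_ ?_)) <;>
      exact isOpen_lt continuous_const (by fun_prop)

/-- The region above `[a, b]` between two affine functions. -/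
def band (a b f0 f1 g0 g1 : ℝ) : Set (ℝ × ℝ) :=
  {p | a ≤ p.1 ∧ p.1 ≤ b ∧ f0 + f1 * p.1 ≤ p.2 ∧ p.2 ≤ g0 + g1 * p.1}

theorem band_measurable (a b f0 f1 g0 g1 : ℝ) : MeasurableSet (band a b f0 f1 g0 g1) := by
  simp only [band, ofPred_and]
  refine MeasurableSet.inter ?_ (MeasurableSet.inter ?_ (MeasurableSet.inter ?_ ?_)) <;>
    exact measurableSet_le (by fun_prop) (by fun_prop)

theorem volume_band (a b f0 f1 g0 g1 : ℝ) (hab : a ≤ b) (ha : f0 + f1 * a ≤ g0 + g1 * a)
    (hb : f0 + f1 * b ≤ g0 + g1 * b) :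
    volume (band a b f0 f1 g0 g1) =
      ENNReal.ofReal ((g0 - f0) * (b - a) + (g1 - f1) * (b ^ 2 - a ^ 2) / 2) := by
  have hle : ∀ x ∈ Icc a b, 0 ≤ (g0 - f0) + (g1 - f1) * x := by
    rintro x ⟨h1, h2⟩
    rcases le_total 0 (g1 - f1) with h | h
    · nlinarith [mul_le_mul_of_nonneg_left h1 h]
    · nlinarith [mul_le_mul_of_nonpos_left h2 h]
  rw [Measure.volume_eq_prod, Measure.prod_apply (band_measurable a b f0 f1 g0 g1)]
  have hsec : ∀ x, volume (Prod.mk x ⁻¹' band a b f0 f1 g0 g1) =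
      (Icc a b).indicator (fun x => ENNReal.ofReal ((g0 - f0) + (g1 - f1) * x)) x := by
    intro x
    by_cases hx : x ∈ Icc a b
    · have : Prod.mk x ⁻¹' band a b f0 f1 g0 g1 = Icc (f0 + f1 * x) (g0 + g1 * x) := by
        ext y
        simp [band, hx.1, hx.2]
      rw [this, Real.volume_Icc, indicator_of_mem hx]
      congr 1
      ring
    · have : Prod.mk x ⁻¹' band a b f0 f1 g0 g1 = ∅ := by
        ext y
        simp only [band, mem_preimage, mem_ofPred_eq, mem_empty_iff_false, iff_false]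
        exact fun h => hx ⟨h.1, h.2.1⟩
      rw [this, measure_empty, indicator_of_notMem hx]
  simp only [hsec]
  rw [lintegral_indicator measurableSet_Icc, ← ofReal_integral_eq_lintegral_ofReal
    (Continuous.integrableOn_Icc (by fun_prop))
    ((ae_restrict_iff' measurableSet_Icc).2 (ae_of_all _ hle)),
    integral_Icc_eq_integral_Ioc, ← intervalIntegral.integral_of_le hab]
  congr 1
  rw [intervalIntegral.integral_add intervalIntegrable_const
    ((by fun_prop : Continuous fun x : ℝ => (g1 - f1) * x).intervalIntegrable _ _),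
    intervalIntegral.integral_const, intervalIntegral.integral_const_mul, integral_id]
  simp [smul_eq_mul]
  ring

/-- Points of the plane whose rescaled coordinates lie in `S`. -/
def pre (a b : ℝ) (S : Set (ℝ × ℝ)) : Set E2 := {y | (a * y 0, b * y 1) ∈ S}

theorem volume_pre {a b : ℝ} (ha : 0 < a) (hb : 0 < b) {S : Set (ℝ × ℝ)} (hS : MeasurableSet S) :
    volume (pre a b S) = ENNReal.ofReal (a * b)⁻¹ * volume S := by
  have hmp : MeasurePreserving (fun y : E2 => (y 0, y 1)) volume volume :=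
    (volume_preserving_finTwoArrow ℝ).comp (PiLp.volume_preserving_ofLp (Fin 2))
  let L : ℝ × ℝ →ₗ[ℝ] ℝ × ℝ := LinearMap.prodMap (a • LinearMap.id) (b • LinearMap.id)
  have hL : LinearMap.det L = a * b := by
    simp [L, LinearMap.det_prodMap]
  have hpre : MeasurableSet (L ⁻¹' S) := hS.preimage L.continuous_of_finiteDimensional.measurable
  have : pre a b S = (fun y : E2 => (y 0, y 1)) ⁻¹' (L ⁻¹' S) := by
    ext y
    simp [pre, L]
  rw [this, hmp.measure_preimage hpre.nullMeasurableSet,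
    Measure.addHaar_preimage_linearMap _ (by rw [hL]; positivity), hL,
    abs_of_pos (inv_pos.2 (mul_pos ha hb))]

end Vale.Agent.P243.RelArea
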