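import Vale.Agent.P243.RelArea

/-!
Eight cylinders covering the regular tetrahedron: directions, bases and shadows.
-/

namespace Vale.Agent.P243.RelArea

open MeasureTheory Set
open scoped RealInnerProductSpace ENNReal

/-- A point of space given by coordinates. -/
def pt (x y z : ℝ) : E3 := WithLp.toLp 2 ![x, y, z]

@[simp] theorem pt_zero (x y z : ℝ) : pt x y z 0 = x := rfl
@[simp] theorem pt_one (x y z : ℝ) : pt x y z 1 = y := rfl
@[simp] theorem pt_two (x y z : ℝ) : pt x y z 2 = z := rfl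

theorem inner_pt (x y z : ℝ) (p : E3) : ⟪pt x y z, p⟫ = x * p 0 + y * p 1 + z * p 2 := by
  simp [PiLp.inner_apply, Fin.sum_univ_three, mul_comm]

/-- Three mutually orthogonal nonzero vectors. -/
structure Triple where
  a : E3
  b : E3
  d : E3
  ha : 0 < ‖a‖
  hb : 0 < ‖b‖
  hd : 0 < ‖d‖
  hab : ⟪a, b⟫ = 0
  had : ⟪a, d⟫ = 0
  hbd : ⟪b, d⟫ = 0
  expand : ∀ p : E3, p = (⟪a, p⟫ / ⟪a, a⟫) • a + (⟪b, p⟫ / ⟪b, b⟫) • b + (⟪d, p⟫ / ⟪d, d⟫) • d

namespace Triple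

variable (F : Triple)

/-- The axis. -/
noncomputable def u : E3 := ‖F.d‖⁻¹ • F.d

theorem norm_u : ‖F.u‖ = 1 := by
  rw [u, norm_smul, norm_inv, norm_norm, inv_mul_cancel₀ F.hd.ne']

/-- The linear chart of the plane orthogonal to the axis. -/
noncomputable def lin : E2 →ₗ[ℝ] E3 where
  toFun y := (y 0 / ‖F.a‖) • F.a + (y 1 / ‖F.b‖) • F.b
  map_add' y z := by simp only [PiLp.add_apply, add_div, add_smul]; abel
  map_smul' t y := by
    simp only [PiLp.smul_apply, smul_eq_mul, RingHom.id_apply, smul_add, smul_smul, mul_div_assoc]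

theorem inner_a_lin (y : E2) : ⟪F.a, F.lin y⟫ = y 0 * ‖F.a‖ := by
  have := F.ha.ne'
  simp only [lin, LinearMap.coe_mk, AddHom.coe_mk, inner_add_right, real_inner_smul_right, F.hab,
    real_inner_self_eq_norm_sq, mul_zero, add_zero]
  field_simp

theorem inner_b_lin (y : E2) : ⟪F.b, F.lin y⟫ = y 1 * ‖F.b‖ := by
  have := F.hb.ne'
  have h : ⟪F.b, F.a⟫ = 0 := by rw [real_inner_comm]; exact F.hab
  simp only [lin, LinearMap.coe_mk, AddHom.coe_mk, inner_add_right, real_inner_smul_right, h,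
    real_inner_self_eq_norm_sq, mul_zero, zero_add]
  field_simp

theorem norm_lin (y : E2) : ‖F.lin y‖ = ‖y‖ := by
  have hsq : ‖F.lin y‖ ^ 2 = ‖y‖ ^ 2 := by
    have ha := F.ha.ne'
    have hb := F.hb.ne'
    have e1 : ⟪(y 0 / ‖F.a‖) • F.a, (y 1 / ‖F.b‖) • F.b⟫ = 0 := by
      simp [real_inner_smul_left, real_inner_smul_right, F.hab]
    show ‖(y 0 / ‖F.a‖) • F.a + (y 1 / ‖F.b‖) • F.b‖ ^ 2 = _
    rw [norm_add_sq_real, e1, norm_smul, norm_smul, EuclideanSpace.norm_sq_eq,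
      Fin.sum_univ_two]
    simp only [Real.norm_eq_abs, abs_div, abs_norm]
    field_simp
    ring
  exact (pow_left_inj₀ (norm_nonneg _) (norm_nonneg _) two_ne_zero).1 hsq

/-- The isometric chart of the plane orthogonal to the axis. -/
noncomputable def e : E2 →ₗᵢ[ℝ] E3 := ⟨F.lin, F.norm_lin⟩

theorem perp (y : E2) : ⟪F.e y, F.u⟫ = 0 := by
  show ⟪F.lin y, F.u⟫ = 0
  simp [lin, u, inner_add_left, real_inner_smul_left, real_inner_smul_right, F.had, F.hbd]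

/-- Every point is the chart of its two coordinates plus a multiple of the axis. -/
theorem exists_eq (p : E3) {S : Set (ℝ × ℝ)} (h : (⟪F.a, p⟫, ⟪F.b, p⟫) ∈ S) :
    ∃ y ∈ pre ‖F.a‖ ‖F.b‖ S, ∃ t : ℝ, p = F.e y + t • F.u := by
  have ha := F.ha.ne'
  have hb := F.hb.ne'
  refine ⟨WithLp.toLp 2 ![⟪F.a, p⟫ / ‖F.a‖, ⟪F.b, p⟫ / ‖F.b‖], ?_, ⟪F.d, p⟫ / ‖F.d‖, ?_⟩
  · simpa [pre, mul_div_cancel₀ _ ha, mul_div_cancel₀ _ hb] using h
  · conv_lhs => rw [F.expand p]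
    show _ = F.lin _ + _
    simp [lin, u, smul_smul, sq, div_eq_mul_inv, mul_assoc]

/-- The shadow contains every planar set all of whose points lift into the body. -/
theorem pre_subset_shadow {K : Set E3} {S : Set (ℝ × ℝ)}
    (h : ∀ q ∈ S, ∃ p ∈ K, (⟪F.a, p⟫, ⟪F.b, p⟫) = q) :
    pre ‖F.a‖ ‖F.b‖ S ⊆ {y | ∃ t : ℝ, F.e y + t • F.u ∈ K} := by
  intro y hy
  obtain ⟨p, hp, hq⟩ := h _ hy
  obtain ⟨z, hz, t, hzt⟩ := F.exists_eq p (S := {(‖F.a‖ * y 0, ‖F.b‖ * y 1)}) (by simp [hq])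
  have hzy : z = y := by
    simp only [pre, mem_ofPred_eq, mem_singleton_iff, Prod.mk.injEq] at hz
    ext i
    fin_cases i
    · exact mul_left_cancel₀ F.ha.ne' hz.1
    · exact mul_left_cancel₀ F.hb.ne' hz.2
  exact ⟨t, by rw [← hzy, ← hzt]; exact hp⟩

/-- Bound for the relative area of a base. -/
theorem ratio_le {K : Set E3} {S Sh : Set (ℝ × ℝ)} {β σ : ℝ} (hS : MeasurableSet S)
    (hSh : MeasurableSet Sh) (hβ : volume S = ENNReal.ofReal β)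
    (hσ : volume Sh = ENNReal.ofReal σ) (hσ0 : 0 < σ)
    (h : ∀ q ∈ Sh, ∃ p ∈ K, (⟪F.a, p⟫, ⟪F.b, p⟫) = q) :
    volume (pre ‖F.a‖ ‖F.b‖ S) / volume {y | ∃ t : ℝ, F.e y + t • F.u ∈ K}
      ≤ ENNReal.ofReal (β / σ) := by
  refine (ENNReal.div_le_div_left (measure_mono (F.pre_subset_shadow h)) _).trans ?_
  rw [volume_pre F.ha F.hb hS, volume_pre F.ha F.hb hSh, hβ, hσ,
    ENNReal.mul_div_mul_left _ _ (ENNReal.ofReal_pos.2 (inv_pos.2 (mul_pos F.ha F.hb))).ne'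
      ENNReal.ofReal_ne_top, ENNReal.ofReal_div_of_pos hσ0]

end Triple

/-- Build an orthogonal triple from coordinates. -/
noncomputable def mkTriple (a b d : E3) (ha : a ≠ 0) (hb : b ≠ 0) (hd : d ≠ 0)
    (hab : ⟪a, b⟫ = 0) (had : ⟪a, d⟫ = 0) (hbd : ⟪b, d⟫ = 0)
    (h : ∀ p : E3, p = (⟪a, p⟫ / ⟪a, a⟫) • a + (⟪b, p⟫ / ⟪b, b⟫) • b + (⟪d, p⟫ / ⟪d, d⟫) • d) :
    Triple :=
  ⟨a, b, d, norm_pos_iff.2 ha, norm_pos_iff.2 hb, norm_pos_iff.2 hd, hab, had, hbd, h⟩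

theorem pt_ne_zero {x y z : ℝ} (h : x ≠ 0 ∨ y ≠ 0 ∨ z ≠ 0) : pt x y z ≠ 0 := by
  intro e
  rcases h with h | h | h
  · exact h (by simpa using congrArg (fun q : E3 => q 0) e)
  · exact h (by simpa using congrArg (fun q : E3 => q 1) e)
  · exact h (by simpa using congrArg (fun q : E3 => q 2) e)

end Vale.Agent.P243.RelArea
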