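import Vale.Agent.P243.RelPieces

/-!
The eight bases cover the tetrahedron.
-/

namespace Vale.Agent.P243.RelArea

open MeasureTheory Set
open scoped RealInnerProductSpace ENNReal

theorem cases_cover (p : E3) (hp : p ∈ tetra) :
    (⟪pt 1 0 0, p⟫, ⟪pt 0 1 (-1), p⟫) ∈ band (11/16) 1 (-1) 1 1 (-1) ∨
    (⟪pt (-1) 0 0, p⟫, ⟪pt 0 1 (-(-1)), p⟫) ∈ band (11/16) 1 (-1) 1 1 (-1) ∨
    (⟪pt 1 0 0, p⟫, ⟪pt 0 (-1) 2, p⟫) ∈ band 0 (11/16) (-(5/8)) 0 (5/8) 0 ∨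
    (⟪pt (-1) 0 0, p⟫, ⟪pt 0 2 1, p⟫) ∈ band 0 (11/16) (-(5/8)) 0 (5/8) 0 ∨
    (⟪pt (-1) 1 (-1), p⟫, ⟪pt (-1) 0 1, p⟫) ∈ band (-1) (-(1/4)) (5/8) 1 (5/24) (-(2/3)) ∨
    (⟪pt 1 (-1) (-1), p⟫, ⟪pt 1 1 0, p⟫) ∈ band (-1) (-(1/4)) (5/8) 1 (5/24) (-(2/3)) ∨
    (⟪pt (-1) (-1) 1, p⟫, ⟪pt (-1) 0 (-1), p⟫) ∈ band (-1) (-(1/4)) (5/8) 1 (5/24) (-(2/3)) ∨
    (⟪pt 1 1 1, p⟫, ⟪pt 1 (-1) 0, p⟫) ∈ band (-1) (-(1/4)) (5/8) 1 (5/24) (-(2/3)) := by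
  obtain ⟨q1, q2, q3, q4⟩ := hp
  simp only [band, mem_ofPred_eq, inner_pt]
  by_cases c1 : (11/16 : ℝ) ≤ p 0
  · left
    refine ⟨?_, ?_, ?_, ?_⟩ <;> linarith
  by_cases c2 : p 0 ≤ -(11/16 : ℝ)
  · right; left
    refine ⟨?_, ?_, ?_, ?_⟩ <;> linarith
  by_cases c3 : 0 ≤ p 0
  · by_cases c4 : 2 * p 2 - p 1 ≤ 5/8
    · by_cases c5 : -(5/8) ≤ 2 * p 2 - p 1
      · right; right; left
        refine ⟨?_, ?_, ?_, ?_⟩ <;> linarith
      · by_cases c6 : -(2 * p 1 + p 2) - 5 * p 0 ≤ 5/8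
        · right; right; right; right; right; right; left
          refine ⟨?_, ?_, ?_, ?_⟩ <;> linarith
        · right; right; right; right; right; right; right
          refine ⟨?_, ?_, ?_, ?_⟩ <;> linarith
    · by_cases c6 : (2 * p 1 + p 2) - 5 * p 0 ≤ 5/8
      · right; right; right; right; left
        refine ⟨?_, ?_, ?_, ?_⟩ <;> linarith
      · right; right; right; right; right; left
        refine ⟨?_, ?_, ?_, ?_⟩ <;> linarith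
  · by_cases c4 : 2 * p 1 + p 2 ≤ 5/8
    · by_cases c5 : -(5/8) ≤ 2 * p 1 + p 2
      · right; right; right; left
        refine ⟨?_, ?_, ?_, ?_⟩ <;> linarith
      · by_cases c6 : (2 * p 2 - p 1) + 5 * p 0 ≤ 5/8
        · right; right; right; right; right; right; right
          refine ⟨?_, ?_, ?_, ?_⟩ <;> linarith
        · right; right; right; right; left
          refine ⟨?_, ?_, ?_, ?_⟩ <;> linarith
    · by_cases c6 : -(2 * p 2 - p 1) + 5 * p 0 ≤ 5/8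
      · right; right; right; right; right; left
        refine ⟨?_, ?_, ?_, ?_⟩ <;> linarith
      · right; right; right; right; right; right; left
        refine ⟨?_, ?_, ?_, ?_⟩ <;> linarith

end Vale.Agent.P243.RelArea
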