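import Vale.Agent.P243.RelCover

/-!
The eight cylinders: frames, lifts of the shadows and the covering of the tetrahedron.
-/

namespace Vale.Agent.P243.RelArea

open MeasureTheory Set
open scoped RealInnerProductSpace ENNReal

theorem frame_exists (a0 a1 a2 b0 b1 b2 d0 d1 d2 : ℝ)
    (ha : 0 < a0 ^ 2 + a1 ^ 2 + a2 ^ 2) (hb : 0 < b0 ^ 2 + b1 ^ 2 + b2 ^ 2)
    (hd : 0 < d0 ^ 2 + d1 ^ 2 + d2 ^ 2)
    (hab : a0 * b0 + a1 * b1 + a2 * b2 = 0) (had : a0 * d0 + a1 * d1 + a2 * d2 = 0)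
    (hbd : b0 * d0 + b1 * d1 + b2 * d2 = 0)
    (h : ∀ x y z : ℝ, ∀ i : Fin 3, ![x, y, z] i =
      (a0 * x + a1 * y + a2 * z) / (a0 * a0 + a1 * a1 + a2 * a2) * ![a0, a1, a2] i +
      (b0 * x + b1 * y + b2 * z) / (b0 * b0 + b1 * b1 + b2 * b2) * ![b0, b1, b2] i +
      (d0 * x + d1 * y + d2 * z) / (d0 * d0 + d1 * d1 + d2 * d2) * ![d0, d1, d2] i) :
    ∃ F : Triple, F.a = pt a0 a1 a2 ∧ F.b = pt b0 b1 b2 ∧ F.d = pt d0 d1 d2 := by
  have nz : ∀ x y z : ℝ, 0 < x ^ 2 + y ^ 2 + z ^ 2 → pt x y z ≠ 0 := by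
    intro x y z hxyz
    apply pt_ne_zero
    by_contra hc
    push Not at hc
    obtain ⟨rfl, rfl, rfl⟩ := hc
    simp at hxyz
  refine ⟨mkTriple (pt a0 a1 a2) (pt b0 b1 b2) (pt d0 d1 d2) (nz _ _ _ ha) (nz _ _ _ hb)
    (nz _ _ _ hd) (by simp [inner_pt, hab]) (by simp [inner_pt, had]) (by simp [inner_pt, hbd])
    (fun p => ?_), rfl, rfl, rfl⟩
  ext i
  have hi := h (p 0) (p 1) (p 2) i
  simp only [inner_pt, PiLp.add_apply, PiLp.smul_apply, smul_eq_mul]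
  fin_cases i <;> simpa using hi

/-- Full statement about one of the eight cylinders. -/
def Good (F : Triple) (a b : E3) (S Sh : Set (ℝ × ℝ)) (β σ : ℝ) : Prop :=
  F.a = a ∧ F.b = b ∧ MeasurableSet S ∧ MeasurableSet Sh ∧ volume S = ENNReal.ofReal β ∧
    volume Sh = ENNReal.ofReal σ ∧ 0 < σ ∧
    ∀ q ∈ Sh, ∃ p ∈ tetra, (⟪a, p⟫, ⟪b, p⟫) = q

theorem good_cap (s : ℝ) (hs : s = 1 ∨ s = -1) :
    ∃ F : Triple, Good F (pt s 0 0) (pt 0 1 (-s)) (band (11/16) 1 (-1) 1 1 (-1))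
      (band (-1) 1 (-1) 1 1 (-1)) (25/256) 4 := by
  obtain ⟨F, h1, h2, -⟩ := frame_exists s 0 0 0 1 (-s) 0 1 s
    (by rcases hs with rfl | rfl <;> norm_num) (by rcases hs with rfl | rfl <;> norm_num)
    (by rcases hs with rfl | rfl <;> norm_num) (by ring) (by ring)
    (by rcases hs with rfl | rfl <;> norm_num)
    (fun x y z i => by rcases hs with rfl | rfl <;> fin_cases i <;> simp <;> ring)
  refine ⟨F, h1, h2, band_measurable .., band_measurable .., ?_, ?_, by norm_num, ?_⟩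
  · rw [volume_band] <;> norm_num
  · rw [volume_band] <;> norm_num
  · rintro ⟨f, h⟩ ⟨q1, q2, q3, q4⟩
    refine ⟨pt (s * f) (h / 2) (-s * h / 2), ?_, ?_⟩
    · simp only [tetra, mem_ofPred_eq, pt_zero, pt_one, pt_two] at q1 q2 q3 q4 ⊢
      rcases hs with rfl | rfl <;> refine ⟨?_, ?_, ?_, ?_⟩ <;> linarith
    · rcases hs with rfl | rfl <;> simp [inner_pt] <;> ring

theorem good_belt (a b : E3) (hab : (a, b) = (pt 1 0 0, pt 0 (-1) 2) ∨
    (a, b) = (pt (-1) 0 0, pt 0 2 1)) :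
    ∃ F : Triple, Good F a b (band 0 (11/16) (-(5/8)) 0 (5/8) 0)
      (band (-1) 1 (-2) 1 2 (-1)) (55/64) 8 := by
  have key : ∀ f h : ℝ, (f, h) ∈ band (-1) 1 (-2) 1 2 (-1) →
      ∃ θ : ℝ, θ * (2 - f) = h ∧ -1 ≤ θ ∧ θ ≤ 1 ∧ θ * f ≤ 1 ∧ -1 ≤ θ * f := by
    rintro f h ⟨q1, q2, q3, q4⟩
    dsimp only at q1 q2 q3 q4
    have h2 : 0 < 2 - f := by linarith
    refine ⟨h / (2 - f), div_mul_cancel₀ _ h2.ne', ?_, ?_, ?_, ?_⟩
    · rw [le_div_iff₀ h2]; linarith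
    · rw [div_le_iff₀ h2]; linarith
    · have e : h / (2 - f) * (2 - f) = h := div_mul_cancel₀ _ h2.ne'
      nlinarith
    · have e : h / (2 - f) * (2 - f) = h := div_mul_cancel₀ _ h2.ne'
      nlinarith
  rcases hab with e | e <;> cases e
  · obtain ⟨F, h1, h2, -⟩ := frame_exists 1 0 0 0 (-1) 2 0 2 1 (by norm_num) (by norm_num)
      (by norm_num) (by ring) (by ring) (by norm_num)
      (fun x y z i => by fin_cases i <;> simp <;> ring)
    refine ⟨F, h1, h2, band_measurable .., band_measurable .., ?_, ?_, by norm_num, ?_⟩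
    · rw [volume_band] <;> norm_num
    · rw [volume_band] <;> norm_num
    · rintro ⟨f, h⟩ hq
      obtain ⟨θ, e, t1, t2, t3, t4⟩ := key f h hq
      refine ⟨pt f (θ * f) θ, ?_, ?_⟩
      · obtain ⟨q1, q2, -, -⟩ := hq
        dsimp only at q1 q2
        simp only [tetra, mem_ofPred_eq, pt_zero, pt_one, pt_two]
        refine ⟨?_, ?_, ?_, ?_⟩ <;> nlinarith
      · simp [inner_pt]
        linarith
  · obtain ⟨F, h1, h2, -⟩ := frame_exists (-1) 0 0 0 2 1 0 1 (-2) (by norm_num) (by norm_num)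
      (by norm_num) (by ring) (by ring) (by norm_num)
      (fun x y z i => by fin_cases i <;> simp <;> ring)
    refine ⟨F, h1, h2, band_measurable .., band_measurable .., ?_, ?_, by norm_num, ?_⟩
    · rw [volume_band] <;> norm_num
    · rw [volume_band] <;> norm_num
    · rintro ⟨f, h⟩ hq
      obtain ⟨θ, e, t1, t2, t3, t4⟩ := key f h hq
      refine ⟨pt (-f) θ (-(θ * f)), ?_, ?_⟩
      · obtain ⟨q1, q2, -, -⟩ := hq
        dsimp only at q1 q2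
        simp only [tetra, mem_ofPred_eq, pt_zero, pt_one, pt_two]
        refine ⟨?_, ?_, ?_, ?_⟩ <;> nlinarith
      · simp [inner_pt]
        linarith

theorem good_corner (a b d : Fin 3 → ℝ) (lift : ℝ → ℝ → ℝ → E3)
    (hab : (a, b, d) = (![-1, 1, -1], ![-1, 0, 1], ![1, 2, 1]) ∧ lift = (fun x y z => pt x y z) ∨
      (a, b, d) = (![1, -1, -1], ![1, 1, 0], ![1, -1, 2]) ∧
        lift = (fun x y z => pt (-x) z (-y)) ∨
      (a, b, d) = (![-1, -1, 1], ![-1, 0, -1], ![1, -2, -1]) ∧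
        lift = (fun x y z => pt x (-y) (-z)) ∨
      (a, b, d) = (![1, 1, 1], ![1, -1, 0], ![1, 1, -2]) ∧
        lift = (fun x y z => pt (-x) (-z) y)) :
    ∃ F : Triple, Good F (pt (a 0) (a 1) (a 2)) (pt (b 0) (b 1) (b 2))
      (band (-1) (-(1/4)) (5/8) 1 (5/24) (-(2/3)))
      (band (-1) 3 (-(3/2)) (1/2) (3/2) (-(1/2))) (15/32) 8 := by
  have hF : ∃ F : Triple, F.a = pt (a 0) (a 1) (a 2) ∧ F.b = pt (b 0) (b 1) (b 2) ∧
      F.d = pt (d 0) (d 1) (d 2) := by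
    rcases hab with ⟨e, -⟩ | ⟨e, -⟩ | ⟨e, -⟩ | ⟨e, -⟩ <;> cases e <;>
      refine frame_exists _ _ _ _ _ _ _ _ _ (by simp <;> norm_num) (by simp <;> norm_num)
        (by simp <;> norm_num) (by simp) (by simp <;> norm_num) (by simp <;> norm_num)
        (fun x y z i => by fin_cases i <;> simp <;> ring)
  obtain ⟨F, h1, h2, -⟩ := hF
  refine ⟨F, h1, h2, band_measurable .., band_measurable .., ?_, ?_, by norm_num, ?_⟩
  · rw [volume_band] <;> norm_num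
  · rw [volume_band] <;> norm_num
  · rintro ⟨f, h⟩ ⟨q1, q2, q3, q4⟩
    dsimp only at q1 q2 q3 q4
    refine ⟨lift ((-1 - f - 2 * h) / 4) (f + (-1 - f - 2 * h) / 4 + ((-1 - f - 2 * h) / 4 + h))
      ((-1 - f - 2 * h) / 4 + h), ?_, ?_⟩
    · rcases hab with ⟨-, e⟩ | ⟨-, e⟩ | ⟨-, e⟩ | ⟨-, e⟩ <;> subst e <;>
        simp only [tetra, mem_ofPred_eq, pt_zero, pt_one, pt_two] <;>
        refine ⟨?_, ?_, ?_, ?_⟩ <;> linarith
    · rcases hab with ⟨e, e'⟩ | ⟨e, e'⟩ | ⟨e, e'⟩ | ⟨e, e'⟩ <;> cases e <;> subst e' <;>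
        simp [inner_pt] <;> ring

end Vale.Agent.P243.RelArea
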