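import Vale.Agent.P243.Chord

/-!
# Cylinder coverings of symmetric bodies

The measure with density `1 + 2 ‖x‖_K` on a symmetric body `K` puts at most `6 V |B| / |P|` on a
cylinder with base `B`, where `P` is the shadow; its total mass is `5 V / 2`.
-/

namespace Vale.Agent.P243

open MeasureTheory Set Metric
open scoped ENNReal Topology Pointwise

variable {V : Type*} [NormedAddCommGroup V] [NormedSpace ℝ V]

/-- An origin-symmetric convex body. -/
structure SymBody (K : Set V) : Prop where
  compact : IsCompact K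
  convex : Convex ℝ K
  symm : ∀ x ∈ K, -x ∈ K
  nhds : K ∈ 𝓝 (0 : V)

namespace SymBody

variable {K : Set V}

lemma zero_mem (hK : SymBody K) : (0 : V) ∈ K := mem_of_mem_nhds hK.nhds

lemma absorbent (hK : SymBody K) : Absorbent ℝ K := absorbent_nhds_zero hK.nhds

lemma continuous (hK : SymBody K) : Continuous (gauge K) := continuous_gauge hK.convex hK.nhds

lemma le_one_iff (hK : SymBody K) (x : V) : gauge K x ≤ 1 ↔ x ∈ K := by
  rw [gauge_le_one_iff_mem_closure hK.convex hK.nhds, hK.compact.isClosed.closure_eq]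

lemma le_iff_mem_smul (hK : SymBody K) {r : ℝ} (hr : 0 < r) (x : V) :
    gauge K x ≤ r ↔ x ∈ r • K := by
  refine ⟨fun h => ?_, fun h => gauge_le_of_mem hr.le h⟩
  rw [mem_smul_set_iff_inv_smul_mem₀ hr.ne', ← hK.le_one_iff,
    gauge_smul_of_nonneg (inv_nonneg.2 hr.le), smul_eq_mul, inv_mul_le_iff₀ hr, mul_one]
  exact h

lemma exists_eq_smul (hK : SymBody K) (y : V) : ∃ q ∈ K, y = gauge K y • q := by
  rcases (gauge_nonneg (s := K) y).eq_or_lt with h | h
  · refine ⟨0, hK.zero_mem, ?_⟩
    have : y = 0 := (gauge_eq_zero hK.absorbent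
      (NormedSpace.isVonNBounded_of_isBounded ℝ hK.compact.isBounded)).1 h.symm
    simp [this]
  · obtain ⟨q, hq, hqe⟩ := mem_smul_set.1 ((hK.le_iff_mem_smul h y).1 le_rfl)
    exact ⟨q, hq, hqe.symm⟩

lemma gauge_convex (hK : SymBody K) {x y : V} {a b : ℝ} (ha : 0 ≤ a) (hb : 0 ≤ b) :
    gauge K (a • x + b • y) ≤ a * gauge K x + b * gauge K y := by
  refine (gauge_add_le hK.convex hK.absorbent _ _).trans_eq ?_
  rw [gauge_smul_of_nonneg ha, gauge_smul_of_nonneg hb, smul_eq_mul, smul_eq_mul]

/-- A norming functional of the gauge. -/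
lemma exists_functional (hK : SymBody K) (y : V) :
    ∃ φ : V →ₗ[ℝ] ℝ, φ y = gauge K y ∧ ∀ p ∈ K, |φ p| ≤ 1 := by
  rcases eq_or_ne y 0 with rfl | hy
  · exact ⟨0, by simp [gauge_zero], fun p _ => by simp⟩
  let f : V →ₗ.[ℝ] ℝ := LinearPMap.mkSpanSingleton y (gauge K y) hy
  obtain ⟨φ, h1, h2⟩ := exists_extension_of_le_sublinear f (gauge K)
    (fun c hc x => by rw [gauge_smul_of_nonneg hc.le, smul_eq_mul])
    (gauge_add_le hK.convex hK.absorbent) (by
      rintro ⟨x, hx⟩
      obtain ⟨c, rfl⟩ := Submodule.mem_span_singleton.1 hx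
      simp only [f, LinearPMap.mkSpanSingleton'_apply, smul_eq_mul, RingHom.id_apply]
      rcases le_total 0 c with hc | hc
      · rw [gauge_smul_of_nonneg hc, smul_eq_mul]
      · exact (mul_nonpos_of_nonpos_of_nonneg hc (gauge_nonneg _)).trans (gauge_nonneg _))
  refine ⟨φ, ?_, fun p hp => abs_le.2 ⟨?_, ?_⟩⟩
  · have := h1 ⟨y, Submodule.mem_span_singleton_self y⟩
    rwa [LinearPMap.mkSpanSingleton_apply] at this
  · have := (h2 (-p)).trans ((hK.le_one_iff _).2 (hK.symm p hp))
    rw [map_neg] at this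
    linarith
  · exact (h2 p).trans ((hK.le_one_iff _).2 hp)

end SymBody

lemma gauge_preimage {W : Type*} [NormedAddCommGroup W] [NormedSpace ℝ W] (g : V ≃L[ℝ] W)
    (K : Set W) (x : V) : gauge (g ⁻¹' K) x = gauge K (g x) := by
  simp only [gauge_def']
  simp [map_smul]

lemma SymBody.preimage {W : Type*} [NormedAddCommGroup W] [NormedSpace ℝ W] {K : Set W}
    (hK : SymBody K) (g : V ≃L[ℝ] W) : SymBody (g ⁻¹' K) where
  compact := g.toHomeomorph.isCompact_preimage.2 hK.compact
  convex := hK.convex.linear_preimage g.toLinearEquiv.toLinearMap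
  symm x hx := by simpa using hK.symm _ hx
  nhds := g.continuous.continuousAt.preimage_mem_nhds (by simpa using hK.nhds)

/-- A convex function lies below its secant on average. -/
lemma integral_le_secant {f : ℝ → ℝ} {a b α β : ℝ} (hab : a ≤ b)
    (hf : ContinuousOn f (Icc a b))
    (hle : ∀ θ ∈ Icc (0 : ℝ) 1, f ((1 - θ) * a + θ * b) ≤ (1 - θ) * α + θ * β) :
    ∫ t in a..b, f t ≤ (b - a) * (α + β) / 2 := by
  rcases hab.eq_or_lt with rfl | hlt
  · simp
  have hd : 0 < b - a := sub_pos.2 hlt
  set c := (β - α) / (b - a) with hc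
  calc ∫ t in a..b, f t ≤ ∫ t in a..b, (α - c * a) + c * t := by
        refine intervalIntegral.integral_mono_on hab (hf.intervalIntegrable_of_Icc hab)
          (Continuous.intervalIntegrable (by fun_prop) _ _) fun t ht => ?_
        have h := hle ((t - a) / (b - a)) ⟨div_nonneg (by linarith [ht.1]) hd.le,
          (div_le_one hd).2 (by linarith [ht.2])⟩
        rw [show (1 - (t - a) / (b - a)) * a + (t - a) / (b - a) * b = t by field_simp; ring] at h
        refine h.trans_eq ?_
        rw [hc]
        field_simp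
        ring
    _ = (b - a) * (α + β) / 2 := by
        rw [intervalIntegral.integral_add (Continuous.intervalIntegrable (by fun_prop) _ _)
          (Continuous.intervalIntegrable (by fun_prop) _ _), intervalIntegral.integral_const,
          intervalIntegral.integral_const_mul, integral_id, hc, smul_eq_mul]
        field_simp
        ring

lemma det_id_add_smulRight (a h : ℝ) (φ : E2 →ₗ[ℝ] ℝ) (y : E2) :
    LinearMap.det (a • LinearMap.id + h • φ.smulRight y) = a * (a + h * φ y) := by
  set b := (EuclideanSpace.basisFun (Fin 2) ℝ).toBasis with hb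
  rw [← LinearMap.det_toMatrix b, Matrix.det_fin_two]
  have hy : y 0 * φ (b 0) + y 1 * φ (b 1) = φ y := by
    conv_rhs => rw [← b.sum_repr y]
    simp [Fin.sum_univ_two, hb]
  simp only [LinearMap.toMatrix_apply]
  simp [hb] at hy ⊢
  linear_combination (a * h) * hy

variable {K : Set (E2 × ℝ)}

/-- The shadow on the first factor. -/
def shade (K : Set (E2 × ℝ)) : Set E2 := {y | ∃ t : ℝ, (y, t) ∈ K}

lemma shade_eq (K : Set (E2 × ℝ)) : shade K = Prod.fst '' K := by
  ext y; simp [shade]

lemma SymBody.shade (hK : SymBody K) : SymBody (shade K) := by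
  rw [shade_eq]
  refine ⟨hK.compact.image continuous_fst, hK.convex.linear_image (LinearMap.fst ℝ E2 ℝ),
    ?_, isOpenMap_fst.image_mem_nhds hK.nhds⟩
  rintro _ ⟨x, hx, rfl⟩
  exact ⟨-x, hK.symm x hx, rfl⟩

lemma fibre_Icc (hK : SymBody K) {y : E2} (hy : y ∈ shade K) :
    ∃ a b : ℝ, a ≤ b ∧ {t : ℝ | (y, t) ∈ K} = Icc a b := by
  set I := {t : ℝ | (y, t) ∈ K} with hI
  have hIc : IsCompact I := by
    refine IsCompact.of_isClosed_subset (hK.compact.image continuous_snd)
      (hK.compact.isClosed.preimage (Continuous.prodMk_right y)) fun t ht => ?_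
    exact ⟨(y, t), ht, rfl⟩
  have hIo : Convex ℝ I := by
    intro s hs t ht α β hα hβ hαβ
    have h := hK.convex (show (y, s) ∈ K from hs) (show (y, t) ∈ K from ht) hα hβ hαβ
    rw [show α • (y, s) + β • (y, t) = (y, α • s + β • t) by
      simp [← add_smul, hαβ]] at h
    exact h
  have hne : I.Nonempty := hy
  refine ⟨sInf I, sSup I, csInf_le_csSup hne hIc.bddBelow hIc.bddAbove, ?_⟩
  exact subset_antisymm (fun t ht => ⟨csInf_le hIc.bddBelow ht, le_csSup hIc.bddAbove ht⟩)
    (hIo.ordConnected.out (hIc.sInf_mem hne) (hIc.sSup_mem hne))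

/-- The volume above a shadow: a body with a chord of length `L` over a point of shadow gauge `s`. -/
lemma volume_lower (hK : SymBody K) {y : E2} {a b : ℝ}
    (ha : (y, a) ∈ K) (hb : (y, b) ∈ K) (hab : a < b) :
    (volume (shade K)).toReal * (b - a) * (2 + gauge (shade K) y) ≤
      6 * (((volume : Measure E2).prod (volume : Measure ℝ)) K).toReal := by
  set P := shade K with hP
  have hPb : SymBody P := hK.shade
  set s := gauge P y with hs
  have hs0 : 0 ≤ s := gauge_nonneg _
  obtain ⟨φ, hφy, hφ⟩ := hPb.exists_functional y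
  set L := b - a with hL
  have hL0 : 0 < L := sub_pos.2 hab
  have hmeas : MeasurableSet K := hK.compact.isClosed.measurableSet
  have hKt : ((volume : Measure E2).prod (volume : Measure ℝ)) K < ⊤ := hK.compact.measure_lt_top
  set ℓ : E2 → ℝ := fun q => ((volume : Measure ℝ) (Prod.mk q ⁻¹' K)).toReal with hℓ
  have hfin : ∀ q, (volume : Measure ℝ) (Prod.mk q ⁻¹' K) ≠ ⊤ := fun q =>
    ((measure_mono (fun t ht => ⟨(q, t), ht, rfl⟩ : Prod.mk q ⁻¹' K ⊆ Prod.snd '' K)).trans_lt
      (hK.compact.image continuous_snd).measure_lt_top).ne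
  have hℓm : Measurable ℓ := (measurable_measure_prodMk_left hmeas).ennreal_toReal
  have hV : ((volume : Measure E2).prod (volume : Measure ℝ)) K = ∫⁻ q, ENNReal.ofReal (ℓ q) := by
    rw [Measure.prod_apply hmeas]
    exact lintegral_congr fun q => (ENNReal.ofReal_toReal (hfin q)).symm
  -- the level sets of the chord length
  have hlev : ∀ τ ∈ Ioo 0 L, ENNReal.ofReal ((volume P).toReal *
      ((1 - τ / L) * (1 - τ / L + τ / L * s))) ≤ volume {q : E2 | τ ≤ ℓ q} := by
    intro τ hτ
    set h := τ / L with hh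
    have hh0 : 0 ≤ h := (div_pos hτ.1 hL0).le
    have hh1 : 0 ≤ 1 - h := sub_nonneg.2 ((div_le_one hL0).2 hτ.2.le)
    set S : E2 →ₗ[ℝ] E2 := (1 - h) • LinearMap.id + h • φ.smulRight y with hS
    have hsub : S '' P ⊆ {q : E2 | τ ≤ ℓ q} := by
      rintro _ ⟨p, hp, rfl⟩
      obtain ⟨tp, htp⟩ := id hp
      obtain ⟨hσ1, hσ2⟩ := abs_le.1 (hφ p hp)
      set σ := φ p with hσ
      have hmem : ∀ u v : ℝ, (y, u) ∈ K → (y, v) ∈ K →
          (S p, (1 - h) * tp + h * ((1 + σ) / 2 * u + (1 - σ) / 2 * (-v))) ∈ K := by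
        intro u v hu hv
        have h1 := hK.convex hu (hK.symm _ hv) (show 0 ≤ (1 + σ) / 2 by linarith)
          (show 0 ≤ (1 - σ) / 2 by linarith) (by ring)
        have h2 := hK.convex htp h1 hh1 hh0 (by ring)
        convert h2 using 1
        refine Prod.ext ?_ ?_
        · simp only [hS, LinearMap.add_apply, LinearMap.smul_apply, LinearMap.id_coe, id,
            LinearMap.smulRight_apply, ← hσ, Prod.fst_add, Prod.smul_fst, Prod.fst_neg]
          module
        · simp
      have hab' := hmem a b ha hb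
      have hba' := hmem b a hb ha
      obtain ⟨c, d, -, hcd⟩ := fibre_Icc hK (y := S p) ⟨_, hab'⟩
      have h1 : (1 - h) * tp + h * ((1 + σ) / 2 * a + (1 - σ) / 2 * (-b)) ∈ Icc c d := by
        rw [← hcd]; exact hab'
      have h2 : (1 - h) * tp + h * ((1 + σ) / 2 * b + (1 - σ) / 2 * (-a)) ∈ Icc c d := by
        rw [← hcd]; exact hba'
      have hτe : h * L = τ := div_mul_cancel₀ _ hL0.ne'
      show τ ≤ ((volume : Measure ℝ) {t | (S p, t) ∈ K}).toReal
      rw [hcd, Real.volume_Icc, ENNReal.toReal_ofReal (by linarith [h1.1, h1.2])]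
      rw [hL] at hτe
      nlinarith [h1.1, h2.2]
    refine le_trans (le_of_eq ?_) (measure_mono hsub)
    rw [Measure.addHaar_image_linearMap, det_id_add_smulRight, hφy,
      abs_of_nonneg (by positivity), mul_comm (volume P).toReal,
      ENNReal.ofReal_mul (by positivity), ENNReal.ofReal_toReal hPb.compact.measure_lt_top.ne]
  have hint : ∫ τ in (0 : ℝ)..L, (volume P).toReal * ((1 - τ / L) * (1 - τ / L + τ / L * s))
      = (volume P).toReal * L * (2 + s) / 6 := by
    have e : ∀ τ, (volume P).toReal * ((1 - τ / L) * (1 - τ / L + τ / L * s))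
        = (volume P).toReal + (volume P).toReal * (s - 2) / L * τ
          + (volume P).toReal * (1 - s) / L ^ 2 * τ ^ 2 := fun τ => by field_simp; ring
    simp only [e]
    rw [intervalIntegral.integral_add (Continuous.intervalIntegrable (by fun_prop) _ _)
        (Continuous.intervalIntegrable (by fun_prop) _ _),
      intervalIntegral.integral_add (Continuous.intervalIntegrable (by fun_prop) _ _)
        (Continuous.intervalIntegrable (by fun_prop) _ _),
      intervalIntegral.integral_const, intervalIntegral.integral_const_mul,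
      intervalIntegral.integral_const_mul, integral_id, integral_pow, smul_eq_mul]
    field_simp
    push_cast
    ring
  have hkey : ENNReal.ofReal ((volume P).toReal * L * (2 + s) / 6) ≤
      ((volume : Measure E2).prod (volume : Measure ℝ)) K := by
    rw [hV, lintegral_eq_lintegral_meas_le _ (Filter.Eventually.of_forall
      fun q => ENNReal.toReal_nonneg) hℓm.aemeasurable, ← hint,
      intervalIntegral.integral_of_le hL0.le, integral_Ioc_eq_integral_Ioo,
      ofReal_integral_eq_lintegral_ofReal]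
    · calc ∫⁻ τ in Ioo 0 L, ENNReal.ofReal ((volume P).toReal *
            ((1 - τ / L) * (1 - τ / L + τ / L * s)))
          ≤ ∫⁻ τ in Ioo 0 L, volume {q : E2 | τ ≤ ℓ q} :=
            setLIntegral_mono' measurableSet_Ioo hlev
        _ ≤ _ := lintegral_mono_set Ioo_subset_Ioi_self
    · exact ((by fun_prop : Continuous fun τ => (volume P).toReal *
        ((1 - τ / L) * (1 - τ / L + τ / L * s))).integrableOn_Icc (a := 0) (b := L)).mono_set
          Ioo_subset_Icc_self
    · refine (ae_restrict_iff' measurableSet_Ioo).2 (Filter.Eventually.of_forall fun τ hτ => ?_)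
      have h1 : 0 ≤ 1 - τ / L := sub_nonneg.2 ((div_le_one hL0).2 hτ.2.le)
      have h2 : 0 ≤ τ / L := (div_pos hτ.1 hL0).le
      positivity
  have := ENNReal.toReal_mono hKt.ne hkey
  rw [ENNReal.toReal_ofReal (by positivity)] at this
  linarith

/-- Every line meets the weighted body in mass at most `6 V / |P|`. -/
lemma line_le (hK : SymBody K) (y : E2) :
    volume (shade K) * ∫⁻ t : ℝ,
        {t | (y, t) ∈ K}.indicator (fun t => ENNReal.ofReal (1 + 2 * gauge K (y, t))) t ≤
      6 * ((volume : Measure E2).prod (volume : Measure ℝ)) K := by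
  by_cases hy : y ∈ shade K
  swap
  · have : {t : ℝ | (y, t) ∈ K} = ∅ := eq_empty_of_forall_notMem fun t ht => hy ⟨t, ht⟩
    simp [this]
  obtain ⟨a, b, hab, hI⟩ := fibre_Icc hK hy
  rw [hI, lintegral_indicator measurableSet_Icc]
  set f : ℝ → ℝ := fun t => 1 + 2 * gauge K (y, t) with hf
  have hfc : Continuous f :=
    continuous_const.add (continuous_const.mul (hK.continuous.comp (Continuous.prodMk_right y)))
  have hf0 : ∀ t, 0 ≤ f t := fun t => by
    have := gauge_nonneg (s := K) (y, t); simp only [hf]; linarith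
  change volume (shade K) * ∫⁻ t in Icc a b, ENNReal.ofReal (f t) ≤ _
  rcases hab.eq_or_lt with rfl | hlt
  · simp [Icc_self]
  have ha : (y, a) ∈ K := by
    show a ∈ {t | (y, t) ∈ K}; rw [hI]; exact left_mem_Icc.2 hab
  have hb : (y, b) ∈ K := by
    show b ∈ {t | (y, t) ∈ K}; rw [hI]; exact right_mem_Icc.2 hab
  obtain ⟨q, ⟨tq, hq⟩, hyq⟩ := hK.shade.exists_eq_smul y
  set s := gauge (shade K) y with hs
  have hs1 : s ≤ 1 := gauge_le_one_of_mem hy
  have hN0 : gauge K (y, s * tq) ≤ s :=
    gauge_le_of_mem (gauge_nonneg _) ⟨(q, tq), hq, Prod.ext (by simpa using hyq.symm) (by simp)⟩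
  have ht0 : s * tq ∈ Icc a b := by
    rw [← hI]; exact (hK.le_one_iff _).1 (hN0.trans hs1)
  set t₀ := s * tq with ht₀
  have hsec : ∀ u v : ℝ, ∀ θ ∈ Icc (0 : ℝ) 1,
      f ((1 - θ) * u + θ * v) ≤ (1 - θ) * f u + θ * f v := by
    intro u v θ hθ
    have h := hK.gauge_convex (x := (y, u)) (y := (y, v)) (sub_nonneg.2 hθ.2) hθ.1
    rw [show (1 - θ) • (y, u) + θ • (y, v) = (y, (1 - θ) * u + θ * v) by
      simp [← add_smul]] at h
    simp only [hf]
    linarith
  have hfa : f a ≤ 3 := by
    have := (hK.le_one_iff _).2 ha; simp only [hf]; linarith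
  have hfb : f b ≤ 3 := by
    have := (hK.le_one_iff _).2 hb; simp only [hf]; linarith
  have hf₀ : f t₀ ≤ 1 + 2 * s := by simp only [hf]; linarith
  have hbound : ∫ t in a..b, f t ≤ (b - a) * (2 + s) := by
    have h1 := integral_le_secant ht0.1 hfc.continuousOn (α := f a) (β := f t₀) (hsec a t₀)
    have h2 := integral_le_secant ht0.2 hfc.continuousOn (α := f t₀) (β := f b) (hsec t₀ b)
    rw [← intervalIntegral.integral_add_adjacent_intervals (hfc.intervalIntegrable a t₀)
      (hfc.intervalIntegrable t₀ b)]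
    nlinarith [ht0.1, ht0.2]
  have hPt : volume (shade K) ≠ ⊤ := hK.shade.compact.measure_lt_top.ne
  have hKt : ((volume : Measure E2).prod (volume : Measure ℝ)) K ≠ ⊤ :=
    hK.compact.measure_lt_top.ne
  have hlow := volume_lower hK ha hb hlt
  rw [← ofReal_integral_eq_lintegral_ofReal (hfc.integrableOn_Icc)
      (Filter.Eventually.of_forall hf0), ← intervalIntegral.integral_of_le hab |>.trans
        integral_Icc_eq_integral_Ioc.symm,
    ← ENNReal.ofReal_toReal hPt, ← ENNReal.ofReal_toReal hKt,
    ← ENNReal.ofReal_mul ENNReal.toReal_nonneg, show (6 : ℝ≥0∞) = ENNReal.ofReal 6 by simp,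
    ← ENNReal.ofReal_mul (by norm_num)]
  refine ENNReal.ofReal_le_ofReal ?_
  rw [mul_assoc] at hlow
  exact (mul_le_mul_of_nonneg_left hbound ENNReal.toReal_nonneg).trans hlow

/-- The mass of the gauge. -/
lemma lintegral_gauge {K : Set E3} (hK : SymBody K) :
    ∫⁻ x in K, ENNReal.ofReal (gauge K x) = ENNReal.ofReal (3 / 4) * volume K := by
  have hm : MeasurableSet K := hK.compact.isClosed.measurableSet
  rw [lintegral_eq_lintegral_meas_lt _ (Filter.Eventually.of_forall fun x => gauge_nonneg x)
    hK.continuous.measurable.aemeasurable]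
  have hlt : ∀ t ∈ Ioi (0 : ℝ), (volume.restrict K) {x | t < gauge K x} =
      (Ioo (0 : ℝ) 1).indicator (fun t => ENNReal.ofReal (1 - t ^ 3) * volume K) t := by
    intro t ht
    rw [Measure.restrict_apply' hm]
    rcases lt_or_ge t 1 with h | h
    · have hsub : t • K ⊆ K := fun x hx =>
        (hK.le_one_iff x).1 ((gauge_le_of_mem (le_of_lt ht) hx).trans h.le)
      have he : {x | t < gauge K x} ∩ K = K \ t • K := by
        ext x
        simp only [mem_inter_iff, mem_ofPred_eq, mem_sdiff, ← hK.le_iff_mem_smul ht, not_le]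
        exact and_comm
      rw [he, measure_sdiff hsub (hK.compact.smul t).isClosed.measurableSet.nullMeasurableSet
        (hK.compact.smul t).measure_lt_top.ne, Measure.addHaar_smul_of_nonneg _ (le_of_lt ht),
        finrank_euclideanSpace_fin, indicator_of_mem (show t ∈ Ioo (0 : ℝ) 1 from ⟨ht, h⟩),
        ENNReal.ofReal_sub _ (pow_nonneg (le_of_lt ht) 3), ENNReal.ofReal_one,
        ENNReal.sub_mul (fun _ _ => hK.compact.measure_lt_top.ne), one_mul]
    · rw [indicator_of_notMem (fun h' => absurd h'.2 (not_lt.2 h))]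
      refine measure_mono_null ?_ measure_empty
      rintro x ⟨h1, h2⟩
      exact absurd ((hK.le_one_iff x).2 h2) (not_le.2 (lt_of_le_of_lt h h1))
  rw [setLIntegral_congr_fun measurableSet_Ioi hlt, lintegral_indicator measurableSet_Ioo,
    Measure.restrict_restrict measurableSet_Ioo, inter_eq_left.2 Ioo_subset_Ioi_self,
    lintegral_mul_const _ (by fun_prop)]
  congr 1
  rw [← ofReal_integral_eq_lintegral_ofReal]
  · rw [← integral_Ioc_eq_integral_Ioo, ← intervalIntegral.integral_of_le zero_le_one,
      intervalIntegral.integral_sub (Continuous.intervalIntegrable (by fun_prop) _ _)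
        (Continuous.intervalIntegrable (by fun_prop) _ _), intervalIntegral.integral_const,
      integral_pow]
    norm_num
  · exact ((by fun_prop : Continuous fun t : ℝ => 1 - t ^ 3).integrableOn_Icc
      (a := 0) (b := 1)).mono_set Ioo_subset_Icc_self
  · exact (ae_restrict_iff' measurableSet_Ioo).2 (Filter.Eventually.of_forall fun t ht =>
      sub_nonneg.2 (pow_le_one₀ ht.1.le ht.2.le))

/-- The covering bound for a symmetric body. -/
theorem symmetric_bound {K : Set E3} (hK : SymBody K) (m : ℕ)
    (g : Fin m → (E2 × ℝ) ≃L[ℝ] E3) (B : Fin m → Set E2) (hB : ∀ i, MeasurableSet (B i))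
    (hcov : ∀ x ∈ K, ∃ i, ((g i).symm x).1 ∈ B i) :
    ENNReal.ofReal (5 / 12) ≤
      ∑ i, volume (B i) / volume {y | ∃ t : ℝ, g i (y, t) ∈ K} := by
  have hm : MeasurableSet K := hK.compact.isClosed.measurableSet
  set F : E3 → ℝ≥0∞ := K.indicator fun x => ENNReal.ofReal (1 + 2 * gauge K x) with hF
  have hFm : Measurable F := Measurable.indicator
    (measurable_const.add (hK.continuous.measurable.const_mul 2)).ennreal_ofReal hm
  set V := volume K with hV
  have hV0 : V ≠ 0 := (Measure.measure_pos_of_mem_nhds _ hK.nhds).ne'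
  have hVt : V ≠ ⊤ := hK.compact.measure_lt_top.ne
  have htot : ∫⁻ x, F x = ENNReal.ofReal (5 / 2) * V := by
    rw [hF, lintegral_indicator hm]
    have e : ∀ x, ENNReal.ofReal (1 + 2 * gauge K x) = 1 + 2 * ENNReal.ofReal (gauge K x) :=
      fun x => by
        rw [ENNReal.ofReal_add zero_le_one (mul_nonneg two_pos.le (gauge_nonneg x)),
          ENNReal.ofReal_one, ENNReal.ofReal_mul two_pos.le, ENNReal.ofReal_ofNat]
    simp only [e]
    rw [lintegral_add_left measurable_const, lintegral_const_mul _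
      hK.continuous.measurable.ennreal_ofReal, lintegral_gauge hK, setLIntegral_const, one_mul,
      ← mul_assoc, show (2 : ℝ≥0∞) * ENNReal.ofReal (3 / 4) = ENNReal.ofReal (2 * (3 / 4)) by
        rw [ENNReal.ofReal_mul two_pos.le, ENNReal.ofReal_ofNat],
      show ENNReal.ofReal (5 / 2) = 1 + ENNReal.ofReal (2 * (3 / 4)) by
        rw [← ENNReal.ofReal_one, ← ENNReal.ofReal_add] <;> norm_num, add_mul, one_mul]
  let cyl : Fin m → Set E3 := fun i => (fun x => ((g i).symm x).1) ⁻¹' B i
  have hcylm : ∀ i, MeasurableSet (cyl i) := fun i =>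
    (hB i).preimage ((g i).symm.continuous.fst).measurable
  have hone : ∀ i, ∫⁻ x in cyl i, F x ≤
      6 * V * (volume (B i) / volume {y | ∃ t : ℝ, g i (y, t) ∈ K}) := by
    intro i
    set Pm := (volume : Measure E2).prod (volume : Measure ℝ) with hPm
    have : (Pm.map (g i)).IsAddHaarMeasure := (g i).isAddHaarMeasure_map _
    have hsm := Measure.isAddLeftInvariant_eq_smul (Pm.map (g i)) (volume : Measure E3)
    set c : ℝ≥0∞ := ((Pm.map (g i)).addHaarScalarFactor volume : ℝ≥0∞) with hc
    have hc0 : c ≠ 0 := by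
      simpa [hc] using (Measure.addHaarScalarFactor_pos_of_isAddHaarMeasure (Pm.map (g i))
        (volume : Measure E3)).ne'
    have hgm : Measurable (g i) := (g i).continuous.measurable
    set K' := (g i) ⁻¹' K with hK'
    have hK'b : SymBody K' := hK.preimage (g i)
    have hshade : {y | ∃ t : ℝ, g i (y, t) ∈ K} = shade K' := rfl
    have hvolK : Pm K' = c * V := by
      rw [hK', ← Measure.map_apply hgm hm, hsm]
      rfl
    set P := volume {y | ∃ t : ℝ, g i (y, t) ∈ K} with hP
    have hP0 : P ≠ 0 := by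
      rw [hP, hshade]; exact (Measure.measure_pos_of_mem_nhds _ hK'b.shade.nhds).ne'
    have hPt : P ≠ ⊤ := by
      rw [hP, hshade]; exact hK'b.shade.compact.measure_lt_top.ne
    have h1 : c * ∫⁻ x in cyl i, F x
        = ∫⁻ y in B i, ∫⁻ t : ℝ, F (g i (y, t)) := by
      rw [← lintegral_indicator (hcylm i), ← smul_eq_mul, ← lintegral_smul_measure,
        show c • (volume : Measure E3) = Pm.map (g i) from hsm.symm,
        lintegral_map (hFm.indicator (hcylm i)) hgm,
        hPm, lintegral_prod (fun z => (cyl i).indicator F (g i z))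
          ((hFm.indicator (hcylm i)).comp hgm).aemeasurable,
        ← lintegral_indicator (hB i)]
      refine lintegral_congr fun y => ?_
      by_cases hy : y ∈ B i
      · rw [indicator_of_mem hy]
        refine lintegral_congr fun t => ?_
        exact indicator_of_mem (show g i (y, t) ∈ cyl i by simpa [cyl] using hy) F
      · rw [indicator_of_notMem hy]
        refine (lintegral_congr fun t => ?_).trans lintegral_zero
        exact indicator_of_notMem (show g i (y, t) ∉ cyl i by simpa [cyl] using hy) F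
    have h2 : P * ∫⁻ y in B i, ∫⁻ t : ℝ, F (g i (y, t)) ≤ 6 * (c * V) * volume (B i) := by
      rw [← lintegral_const_mul' _ _ hPt, ← setLIntegral_const, ← hvolK]
      refine lintegral_mono fun y => ?_
      refine le_trans (le_of_eq ?_) (line_le hK'b y)
      rw [hP, hshade]
      congr 1
      refine lintegral_congr fun t => ?_
      rw [hF, hK']
      by_cases ht : g i (y, t) ∈ K
      · rw [indicator_of_mem ht, indicator_of_mem (show t ∈ {t | (y, t) ∈ (g i) ⁻¹' K} from ht),
          gauge_preimage]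
      · rw [indicator_of_notMem ht,
          indicator_of_notMem (show t ∉ {t | (y, t) ∈ (g i) ⁻¹' K} from ht)]
    rw [← h1] at h2
    have hct : c ≠ ⊤ := ENNReal.coe_ne_top
    refine (ENNReal.mul_le_mul_iff_right (mul_ne_zero hc0 hP0) (ENNReal.mul_ne_top hct hPt)).1 ?_
    calc c * P * ∫⁻ x in cyl i, F x = P * (c * ∫⁻ x in cyl i, F x) := by ring
      _ ≤ 6 * (c * V) * volume (B i) := h2
      _ = c * (6 * V) * (P * (volume (B i) / P)) := by
          rw [ENNReal.mul_div_cancel hP0 hPt]; ring
      _ = c * P * (6 * V * (volume (B i) / P)) := by ring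
  have hsum : ∫⁻ x, F x ≤ ∑ i, ∫⁻ x in cyl i, F x := by
    simp only [← lintegral_indicator (hcylm _)]
    rw [← lintegral_finsetSum _ (fun i _ => hFm.indicator (hcylm i))]
    refine lintegral_mono fun x => ?_
    by_cases hx : x ∈ K
    · obtain ⟨i, hi⟩ := hcov x hx
      exact le_trans (le_of_eq (indicator_of_mem (show x ∈ cyl i from hi) F).symm)
        (Finset.single_le_sum (f := fun i => (cyl i).indicator F x) (fun _ _ => zero_le')
          (Finset.mem_univ i))
    · simp [hF, hx]
  have hfin := (htot ▸ hsum).trans (Finset.sum_le_sum fun i _ => hone i)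
  rw [← Finset.mul_sum, show ENNReal.ofReal (5 / 2) * V = 6 * V * ENNReal.ofReal (5 / 12) by
    rw [mul_comm (6 : ℝ≥0∞), mul_assoc, mul_comm (ENNReal.ofReal (5 / 2)),
      show (6 : ℝ≥0∞) = ENNReal.ofReal 6 by simp, ← ENNReal.ofReal_mul (by norm_num)]
    norm_num] at hfin
  exact (ENNReal.mul_le_mul_iff_right (mul_ne_zero (by norm_num) hV0)
    (ENNReal.mul_ne_top (by norm_num) hVt)).1 hfin

end Vale.Agent.P243
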