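import Vale.Agent.P243.Symmetric

/-!
# Cylinder coverings of centrally symmetric bodies: at least five twelfths
-/

namespace Vale.Agent.P243.SymmetricRel

open MeasureTheory Set
open scoped RealInnerProductSpace ENNReal Topology

/-- In every covering of a centrally symmetric convex body in `ℝ³` by finitely many cylinders the
base areas divided by the projection areas in the same directions sum to at least `5/12`;
consequently the base areas sum to at least `5/12` times any common lower bound of all projection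
areas. -/
theorem relative_bound : ∀ (K : Set (EuclideanSpace ℝ (Fin 3))), IsCompact K → Convex ℝ K →
    (interior K).Nonempty → ∀ c : EuclideanSpace ℝ (Fin 3), (∀ x ∈ K, (2 : ℝ) • c - x ∈ K) →
    ∀ (m : ℕ) (u : Fin m → EuclideanSpace ℝ (Fin 3))
      (e : Fin m → EuclideanSpace ℝ (Fin 2) →ₗᵢ[ℝ] EuclideanSpace ℝ (Fin 3))
      (B : Fin m → Set (EuclideanSpace ℝ (Fin 2))),
      (∀ i, ‖u i‖ = 1) → (∀ i y, ⟪e i y, u i⟫ = 0) →
      K ⊆ ⋃ i, {x | ∃ y ∈ B i, ∃ t : ℝ, x = e i y + t • u i} →
      ENNReal.ofReal (5 / 12) ≤ ∑ i, volume (B i) / volume {y | ∃ t : ℝ, e i y + t • u i ∈ K} ∧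
      ∀ A : ℝ≥0∞, (∀ i, A ≤ volume {y | ∃ t : ℝ, e i y + t • u i ∈ K}) →
        ENNReal.ofReal (5 / 12) * A ≤ ∑ i, volume (B i) := by
  intro K hK hKc hne c hsym m u e B hu hperp hcov
  -- the translate centred at the origin
  set K₀ : Set E3 := (fun x => c + x) ⁻¹' K with hK₀
  have hK₀c : Convex ℝ K₀ := hKc.translate_preimage_right c
  have hsym₀ : ∀ x ∈ K₀, -x ∈ K₀ := fun x hx => by
    have := hsym _ hx
    rwa [show (2 : ℝ) • c - (c + x) = c + -x by module] at this
  have h0 : K₀ ∈ 𝓝 (0 : E3) := by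
    obtain ⟨p, hp⟩ := hne
    obtain ⟨ε, hε, hball⟩ := Metric.isOpen_iff.1 isOpen_interior p hp
    refine Metric.mem_nhds_iff.2 ⟨ε, hε, fun w hw => ?_⟩
    have h1 : p + w ∈ K := interior_subset (hball (by simpa [dist_eq_norm] using hw))
    have h2 : (2 : ℝ) • c - (p - w) ∈ K := hsym _ (interior_subset (hball (by
      simpa [dist_eq_norm] using hw)))
    have := hKc h1 h2 (show (0 : ℝ) ≤ 1 / 2 by norm_num) (show (0 : ℝ) ≤ 1 / 2 by norm_num)
      (by norm_num)
    show c + w ∈ K
    convert this using 1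
    module
  have hsb : SymBody K₀ :=
    ⟨(Homeomorph.addLeft c).isCompact_preimage.2 hK, hK₀c, hsym₀, h0⟩
  -- the frames
  let g₀ : Fin m → (E2 × ℝ →ₗ[ℝ] E3) := fun i =>
    (e i).toLinearMap.coprod (LinearMap.toSpanSingleton ℝ E3 (u i))
  have hg₀ : ∀ i q, g₀ i q = e i q.1 + q.2 • u i := fun i q => by
    simp [g₀, LinearMap.coprod_apply, LinearMap.toSpanSingleton_apply]
  have hinj : ∀ i, Function.Injective (g₀ i) := by
    intro i
    rw [injective_iff_map_eq_zero]
    intro q hq
    rw [hg₀] at hq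
    have h2 := congrArg (fun z => ⟪z, u i⟫) hq
    simp only [inner_add_left, real_inner_smul_left, hperp, real_inner_self_eq_norm_sq, hu,
      inner_zero_left, zero_add, one_pow, mul_one] at h2
    rw [h2, zero_smul, add_zero] at hq
    exact Prod.ext ((e i).injective (by simpa using hq)) h2
  let g : Fin m → (E2 × ℝ) ≃L[ℝ] E3 := fun i =>
    (LinearMap.linearEquivOfInjective (g₀ i) (hinj i) (by simp)).toContinuousLinearEquiv
  have hg : ∀ i q, g i q = e i q.1 + q.2 • u i := hg₀
  set q₀ : Fin m → E2 × ℝ := fun i => (g i).symm c with hq₀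
  have hshift : ∀ i y t, c + g i (y, t) = e i ((q₀ i).1 + y) + ((q₀ i).2 + t) • u i := by
    intro i y t
    conv_lhs => rw [← (g i).apply_symm_apply c, ← map_add, hg]
    rfl
  have hcov₀ : ∀ x ∈ K₀, ∃ i, ((g i).symm x).1 ∈
      (fun y => (q₀ i).1 + y) ⁻¹' toMeasurable volume (B i) := by
    intro x hx
    obtain ⟨i, y, hy, t, hxy⟩ := Set.mem_iUnion.1 (hcov hx)
    refine ⟨i, subset_toMeasurable volume (B i) ?_⟩
    have : (g i).symm x = (y, t) - q₀ i := by
      rw [hq₀, ← (g i).symm_apply_apply (y, t), ← map_sub, hg]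
      congr 1
      rw [← hxy]
      simp
    show (q₀ i).1 + ((g i).symm x).1 ∈ B i
    rw [this]
    simpa using hy
  have h := symmetric_bound hsb m g _
    (fun i => (measurableSet_toMeasurable volume (B i)).preimage (measurable_const_add _)) hcov₀
  have hshade : ∀ i, {y : E2 | ∃ t : ℝ, g i (y, t) ∈ K₀}
      = (fun y => (q₀ i).1 + y) ⁻¹' {y | ∃ t : ℝ, e i y + t • u i ∈ K} := by
    intro i
    ext y
    constructor
    · rintro ⟨t, ht⟩
      exact ⟨(q₀ i).2 + t, by rw [← hshift]; exact ht⟩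
    · rintro ⟨t, ht⟩
      refine ⟨t - (q₀ i).2, ?_⟩
      show c + g i (y, t - (q₀ i).2) ∈ K
      rw [hshift, add_sub_cancel]
      exact ht
  simp only [hshade, measure_preimage_add, measure_toMeasurable] at h
  refine ⟨h, fun A hA => ?_⟩
  calc ENNReal.ofReal (5 / 12) * A
      ≤ (∑ i, volume (B i) / volume {y | ∃ t : ℝ, e i y + t • u i ∈ K}) * A :=
        mul_le_mul_left h _
    _ = ∑ i, volume (B i) / volume {y | ∃ t : ℝ, e i y + t • u i ∈ K} * A := Finset.sum_mul ..
    _ ≤ _ := Finset.sum_le_sum fun i _ =>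
        (mul_le_mul_right (hA i) _).trans (by rw [mul_comm]; exact ENNReal.mul_div_le)

end Vale.Agent.P243.SymmetricRel
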